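import Vale.Agent.P281.H303.X.Base
import Vale.Agent.P281.H364.V.Neat
import Vale.Agent.P281.H64.TW.Fin

/-!
# P281 (helper303): models with mild exceptional divisors
-/

open Set Filter
open Vale.Agent.P281 Vale.Agent.P281.H713.TZ.S
open Vale.Agent.P281.H511.Surf (IsFibration)
open Vale.Agent.P281.H64.TW (HasNeatModel)
open scoped Manifold ContDiff Topology

noncomputable section

namespace Vale.Agent.P281.H303.X

section

variable {n p : ℕ} {X Y : Type} [tX : TopologicalSpace X] [cX : ChartedSpace (Cm n) X]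
  [tY : TopologicalSpace Y] [cY : ChartedSpace (Cm p) Y] {f : X → Y} {Δ : Set X → ℝ}

/-- a fibration without exceptional divisors has mild exceptional divisors -/
theorem mild_of_noExc (h : H64.StatV.NoExc n p f) : MildExc n p f Δ := fun D hD =>
  (h D hD).elim Or.inl fun h' => Or.inr (Or.inl h')

/-- exceptional divisors of coefficient one are mild, if `B(f, Δ)` is SNC -/
theorem mild_of_excOne (h : H64.StatV.ExcOne n p f Δ) : MildExc n p f Δ := by
  intro D hD
  rcases h.1 D hD with h1 | h1 | h1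
  · exact Or.inl h1
  · exact Or.inr (Or.inl h1)
  · refine Or.inr (Or.inr ⟨⟨univ, isOpen_univ, subset_univ _, fun y _ => h.2 y⟩, Or.inr (Or.inr ?_)⟩)
    rw [h1, sub_self]
    refine finsum_nonneg fun G => finsum_nonneg fun _ => mul_nonneg (Nat.cast_nonneg _) ?_
    by_cases hG : J.IsPrime (Cm p) G
    · rw [H399.Gen.base_of hG]
      have := H964.coef_le_one (H399.Gen.mm n p f Δ G)
      linarith
    · rw [H399.Gen.base_not hG]
      norm_num

theorem mild_of_neat (h : HasNeatModel n p f Δ) : HasMildModel n p f Δ := by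
  obtain ⟨X₁, Y₁, _, _, _, _, f₁, Δ₁, hM, he⟩ := h
  exact ⟨X₁, Y₁, inferInstance, inferInstance, inferInstance, inferInstance, f₁, Δ₁, hM,
    he.elim mild_of_noExc mild_of_excOne⟩

/-- **`κ(f | Δ) ≤ kodF f Δ` if `f` has a model with mild exceptional divisors** -/
theorem kap_le_kodF (hf : IsFibration (Cm n) (Cm p) f Δ) (h : HasMildModel n p f Δ) :
    kap (Cm n) (Cm p) ⟨X, Y, tX, tY, cX, cY, f, Δ⟩ ≤ kodF n p Δ (id : X → X) f := by
  obtain ⟨X₁, Y₁, tX₁, cX₁, tY₁, cY₁, f₁, Δ₁, ⟨h₁, hs⟩, he⟩ := h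
  have hlink : Linked (Cm n) (Cm p) ⟨X, Y, tX, tY, cX, cY, f, Δ⟩
      ⟨X₁, Y₁, tX₁, tY₁, cX₁, cY₁, f₁, Δ₁⟩ := .symm _ _ (.rel _ _ hs)
  have h1 : kap (Cm n) (Cm p) ⟨X, Y, tX, tY, cX, cY, f, Δ⟩ ≤
      kodX (Cm p) (base (Cm n) (Cm p) f₁ Δ₁) := iInf₂_le _ hlink
  exact (h1.trans (base_le h₁ he)).trans (H64.StatV.step _ _ _ _ _ _ _ _ _ _ hf h₁ hs)

/-- the same, with the condition as it is in the statements -/
theorem kap_le_or (hf : IsFibration (Cm n) (Cm p) f Δ) (h : p = 1 ∨ HasMildModel n p f Δ) :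
    kap (Cm n) (Cm p) ⟨X, Y, tX, tY, cX, cY, f, Δ⟩ ≤ kodF n p Δ (id : X → X) f :=
  kap_le_kodF hf (h.elim (fun hp => mild_of_neat (H364.V.neat1 hf hp)) id)

end

end Vale.Agent.P281.H303.X
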