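import Vale.Agent.P281.H64.TV.Stat

/-!
# P281: fibrations with mild exceptional divisors, definitions
-/

open Set Filter
open Vale.Agent.P281 Vale.Agent.P281.H713.TZ.S
open Vale.Agent.P281.H64.StatV (IsModel)
open scoped Manifold ContDiff Topology

noncomputable section

namespace Vale.Agent.P281.H303.X

section

variable (n p : ℕ) {X Y : Type} [TopologicalSpace X] [ChartedSpace (Cm n) X] [TopologicalSpace Y]
  [ChartedSpace (Cm p) Y] (f : X → Y) (Δ : Set X → ℝ) (D : Set X)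

/-- The components of `B(f, Δ)` which contain `f(D)`. -/
def Over : Set (Set Y) := {G | base (Cm n) (Cm p) f Δ G ≠ 0 ∧ f '' D ⊆ G}

/-- The multiplicity `ord_D(f^* G)`. -/
def ordD (G : Set Y) : ℕ :=
  sInf {k : ℕ | ∃ x ∈ D, ∃ e g w, J.IsLocalEq (Cm n) D e x ∧ J.IsLocalEq (Cm p) G g (f x) ∧
    J.HolAt (Cm n) w x ∧ w x ≠ 0 ∧ ∀ᶠ z in 𝓝 x, g (f z) = e z ^ k * w z}

/-- For the exceptional prime divisors `D` of `f` (`f(D)` is neither `Y` nor a prime divisor):
`B = B(f, Δ)` has simple normal crossings near `f(D)`, and at most one component of `B` contains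
`f(D)`, or `f(D)` contains no nonempty open subset of the intersection of the components of `B` which
contain it, or `∑_G ord_D(f^* G) / m(f, Δ; G) ≥ 1 / m_Δ(D)`, the sum over these components (for
instance `Δ(D) = 1`). -/
def MildExc : Prop :=
  ∀ D, J.IsPrime (Cm n) D → closure (f '' D) = univ ∨ J.IsPrime (Cm p) (closure (f '' D)) ∨
    (∃ U, IsOpen U ∧ f '' D ⊆ U ∧ ∀ y ∈ U, SNCAt (Cm p) (base (Cm n) (Cm p) f Δ) y) ∧
      ((Over n p f Δ D).Subsingleton ∨
        (∀ V, IsOpen V → V ∩ ⋂₀ Over n p f Δ D ⊆ f '' D → V ∩ ⋂₀ Over n p f Δ D = ∅) ∨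
        1 - Δ D ≤ ∑ᶠ G ∈ Over n p f Δ D,
          (ordD n p f D G : ℝ) * (1 - base (Cm n) (Cm p) f Δ G))

/-- `f : (X, Δ) → Y` has a model with mild exceptional divisors (for instance `f` itself). -/
def HasMildModel : Prop :=
  ∃ (X₁ Y₁ : Type) (_ : TopologicalSpace X₁) (_ : ChartedSpace (Cm n) X₁)
    (_ : TopologicalSpace Y₁) (_ : ChartedSpace (Cm p) Y₁) (f₁ : X₁ → Y₁) (Δ₁ : Set X₁ → ℝ),
    IsModel n p f₁ Δ₁ f Δ ∧ MildExc n p f₁ Δ₁

end

end Vale.Agent.P281.H303.X
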