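import Vale.Agent.P281.H303.X.Comp
import Vale.Agent.P281.H303.X.Stat
import Vale.Agent.P281.H383.Gen.Base1
import Vale.Agent.P281.H364.Gen.Neat

/-!
# P281 (helper303): `κ(f | Δ) ≤ kodF f Δ` for mild exceptional divisors
-/

open Set Filter Metric Vale.Agent.P281 Vale.Agent.P281.H713 Vale.Agent.P281.H64
open Vale.Agent.P281.H64.Gen
open Vale.Agent.P281.H511.Gen (sm)
open Vale.Agent.P281.H399.Gen (gen_point mulSet mm base_of base_not isPrime_of one_mem snc_of)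
open Vale.Agent.P281.H383.Gen (exists_notMem exists_prime_dom dich_glob)
open Vale.Agent.P281.H64.Thin (IsThinSet)
open scoped Topology ContDiff Manifold ENNReal

set_option linter.all false

noncomputable section

namespace Vale.Agent.P281.H303.X

/-- the orbifold base of a fibration is a rational boundary -/
theorem bdry (hI : IrrStmt) (hF : FinStmt) (hC : CritStmt) (hK : ComplStmt) {n p : ℕ} {X Y : Type}
    [TopologicalSpace X] [T2Space X] [CompactSpace X] [ConnectedSpace X]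
    [ChartedSpace (Cm n) X] [IsManifold 𝓘(ℂ, Cm n) ω X] [TopologicalSpace Y] [T2Space Y]
    [ChartedSpace (Cm p) Y] [IsManifold 𝓘(ℂ, Cm p) ω Y] {f : X → Y} {Δ : Set X → ℝ}
    (hf : ContMDiff 𝓘(ℂ, Cm n) 𝓘(ℂ, Cm p) ω f) (hconn : ∀ y, IsConnected (f ⁻¹' {y}))
    (hΔ : J.IsSNC (Cm n) Δ) :
    {G | TZ.S.base (Cm n) (Cm p) f Δ G ≠ 0}.Finite ∧
      (∀ G, TZ.S.base (Cm n) (Cm p) f Δ G ≠ 0 → J.IsPrime (Cm p) G) ∧
      ∀ G, ∃ q : ℚ, TZ.S.base (Cm n) (Cm p) f Δ G = q ∧ 0 ≤ q ∧ q ≤ 1 := by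
  classical
  obtain ⟨hfin, hpr, hrat, -⟩ := hΔ
  have hsurj : Function.Surjective f := fun y => (hconn y).nonempty
  have hΔ0 : ∀ D, 0 ≤ Δ D := fun D => by
    obtain ⟨q, hq, h0, -⟩ := hrat D
    rw [hq]
    exact_mod_cast h0
  have hΔ1 : ∀ D, Δ D ≤ 1 := fun D => by
    obtain ⟨q, hq, -, h1⟩ := hrat D
    rw [hq]
    exact_mod_cast h1
  -- the critical set is thin
  have hY : ConnectedSpace Y := hsurj.connectedSpace hf.continuous
  have hcrit : {D : Set X | J.IsPrime (Cm n) D ∧ D ⊆ H364.critSet (n := n) (p := p) f}.Finite := by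
    refine hF n X _ (H511.Gen.isThinSet_of_analytic (H364.critSet_analytic hf) ?_)
    obtain ⟨S, hS, hSf⟩ := hC n p X Y f hf hconn
    obtain ⟨y, hy⟩ := (hK p Y S hS).1.nonempty
    obtain ⟨x, rfl⟩ := hsurj y
    intro h
    have hx : x ∈ H364.critSet (n := n) (p := p) f := by rw [h]; exact mem_univ x
    exact hx ((hSf S Subset.rfl hS.1).submersive x hy)
  have hcritc : IsClosed (H364.critSet (n := n) (p := p) f) :=
    H511.Gen.isAnalyticSet_isClosed (H364.critSet_analytic hf)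
  have hΓfin : {G | TZ.S.base (Cm n) (Cm p) f Δ G ≠ 0}.Finite := by
    refine ((hfin.union hcrit).image fun D => closure (f '' D)).subset ?_
    intro G hG
    have hGp := isPrime_of hG
    obtain ⟨P, hP, hPG⟩ := exists_prime_dom hI hF hf hsurj hGp
    refine ⟨P, ?_, hPG⟩
    by_cases hΔP : Δ P = 0
    swap
    · exact Or.inl hΔP
    right
    refine ⟨hP, ?_⟩
    by_contra hcon
    obtain ⟨x₁, hx₁, hx₁c⟩ := not_subset.1 hcon
    obtain ⟨y, hyN, hyD, hyG, -⟩ := gen_point hf hP hGp hPG finite_empty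
      (fun G' h => absurd h (notMem_empty G')) hx₁ (hcritc.isOpen_compl.mem_nhds hx₁c)
    have h1 : 1 ∈ mulSet n p f P G := one_mem hf (fun z hz => by
      rw [← hPG]
      exact subset_closure (mem_image_of_mem f hz)) hyD hyG (not_not.1 hyN)
    apply hG
    rw [base_of hGp]
    apply H964.coef_zero
    refine le_trans (iInf₂_le P ⟨hP, hPG⟩) ?_
    rw [hΔP, ENNReal.ofReal_zero, tsub_zero, inv_one, mul_one]
    exact_mod_cast Nat.sInf_le h1
  refine ⟨hΓfin, fun G hG => isPrime_of hG, ?_⟩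
  · -- rationality
    intro G
    by_cases hG : J.IsPrime (Cm p) G
    · rw [base_of hG]
      suffices h : ∃ r : ℚ, (1 - (mm n p f Δ G)⁻¹).toReal = r by
        obtain ⟨r, hr⟩ := h
        refine ⟨r, hr, ?_, ?_⟩
        · have := H964.coef_nonneg (mm n p f Δ G)
          rw [hr] at this
          exact_mod_cast this
        · have := H964.coef_le_one (mm n p f Δ G)
          rw [hr] at this
          exact_mod_cast this
      have hr : (range Δ).Finite := by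
        refine ((hfin.image Δ).union (finite_singleton 0)).subset ?_
        rintro _ ⟨D, rfl⟩
        by_cases h : Δ D = 0
        · right; exact h
        · left; exact ⟨D, h, rfl⟩
      rcases H964.iInf_attained (P := fun D => J.IsPrime (Cm n) D ∧ closure (f '' D) = G)
        (k := fun D => sInf (mulSet n p f D G)) (δ := Δ) hr with h | ⟨D, hD, h⟩
      · refine ⟨1, ?_⟩
        have e : mm n p f Δ G = ⊤ := by
          rw [mm]
          exact iInf₂_eq_top.mpr fun D hD => absurd hD (h D)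
        rw [e]
        simp
      · obtain ⟨q, hq, h0, h1⟩ := hrat D
        have e : mm n p f Δ G = ((sInf (mulSet n p f D G) : ℕ) : ℝ≥0∞) *
          (1 - ENNReal.ofReal (Δ D))⁻¹ := h
        rw [e]
        exact H964.rat_coef _ hq h0 h1
    · exact ⟨0, by rw [base_not hG, Rat.cast_zero], le_rfl, zero_le_one⟩

section

variable {n p : ℕ} {X Y : Type}
    [TopologicalSpace X] [T2Space X] [CompactSpace X] [ConnectedSpace X]
    [ChartedSpace (Cm n) X] [IsManifold 𝓘(ℂ, Cm n) ω X] [TopologicalSpace Y] [T2Space Y]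
    [ChartedSpace (Cm p) Y] [IsManifold 𝓘(ℂ, Cm p) ω Y] {f : X → Y} {Δ : Set X → ℝ}

/-- the image of a prime divisor of `f⁻¹(G)` is not dense -/
theorem not_dense {P : Set X} {G : Set Y} (hG : J.IsPrime (Cm p) G) (hPG : P ⊆ f ⁻¹' G) :
    closure (f '' P) ≠ univ := by
  intro h
  have h1 : closure (f '' P) ⊆ G := closure_minimal (image_subset_iff.2 hPG) hG.1
  rw [h] at h1
  obtain ⟨y, hy⟩ := hG.2.2.nonempty
  obtain ⟨z, -, hz⟩ := IsLocalEq.exists_notMem (E := Cm p) (D := G) hG.2.1 isOpen_univ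
    ⟨y, mem_univ y⟩
  exact hz (h1 (mem_univ z))

/-- normal crossings at the images of the general points -/
theorem nc (hI : IrrStmt) (hf : ContMDiff 𝓘(ℂ, Cm n) 𝓘(ℂ, Cm p) ω f)
    (hsurj : Function.Surjective f)
    (hfin : {G | TZ.S.base (Cm n) (Cm p) f Δ G ≠ 0}.Finite) (hm : MildExc n p f Δ) (z : X)
    (G : Set Y) (hG : TZ.S.base (Cm n) (Cm p) f Δ G ≠ 0) (hz : f z ∈ G) :
    z ∈ closure {z' | (∃ G, TZ.S.base (Cm n) (Cm p) f Δ G ≠ 0 ∧ f z' ∈ G) ∧
      ∀ᶠ y in 𝓝 (f z'), TZ.S.SNCAt (Cm p) (TZ.S.base (Cm n) (Cm p) f Δ) y} := by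
  have hGp := isPrime_of hG
  rw [mem_closure_iff_nhds]
  intro N hN
  have hex := exists_notMem hsurj hGp
  have hyp := H511.Gen.isHyp_preimage hf hGp.2.1
    (H511.Gen.not_eventually_preimage hf hGp.2.1 hex)
  obtain ⟨g, hg, hg0, hgD⟩ := hyp z
  obtain ⟨z₁, hz₁, e, he, he0, hde, heD⟩ := H511.Gen.exists_smooth hg hg0 hgD hz
    (interior_mem_nhds.2 hN)
  obtain ⟨P, hP, hPD, hPe⟩ := hI n X (f ⁻¹' G) (hGp.1.preimage hf.continuous) hyp z₁ e he he0 hde
    heD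
  have hz₁P : z₁ ∈ P := (H511.Gen.isLocalEq_mem_iff hPe).self_of_nhds.2 he0
  rcases hm P hP with h | h | ⟨⟨U, hUo, hUP, hU⟩, -⟩
  · exact absurd h (not_dense hGp hPD)
  · have hPG : closure (f '' P) = G := H511.Gen.prime_eq_of_subset h hGp
      (closure_minimal (image_subset_iff.2 hPD) hGp.1)
    have h𝒢f : {G' | TZ.S.base (Cm n) (Cm p) f Δ G' ≠ 0 ∧ G' ≠ G}.Finite :=
      hfin.subset fun G' h => h.1
    obtain ⟨y, hyN, hyD, hyG, hy⟩ := gen_point hf hP hGp hPG h𝒢f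
      (fun G' h => ⟨isPrime_of h.1, h.2⟩) hz₁P (mem_interior_iff_mem_nhds.1 hz₁)
    refine ⟨y, hyN, ⟨G, hG, hyG.1⟩, ?_⟩
    have h1 : ∀ᶠ y' in 𝓝 (f y), ∀ G' ∈ {G' | TZ.S.base (Cm n) (Cm p) f Δ G' ≠ 0 ∧ G' ≠ G},
        y' ∉ G' := by
      rw [eventually_all_finite h𝒢f]
      intro G' hG'
      exact (isPrime_of hG'.1).1.isOpen_compl.mem_nhds (hy G' hG')
    filter_upwards [h1, H511.Gen.sm_eventually hyG] with y' h2 h3
    refine snc_of h3 fun G' h4 h5 => ?_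
    by_contra h6
    exact h2 G' ⟨h4, h6⟩ h5
  · refine ⟨z₁, interior_subset hz₁, ⟨G, hG, hPD hz₁P⟩, ?_⟩
    filter_upwards [hUo.mem_nhds (hUP (mem_image_of_mem f hz₁P))] with y hy
    exact hU y hy

/-- the condition at the generic points of `f⁻¹(B)` -/
theorem case (hI : IrrStmt) (hf : ContMDiff 𝓘(ℂ, Cm n) 𝓘(ℂ, Cm p) ω f)
    (hsurj : Function.Surjective f) (hΔ : J.IsSNC (Cm n) Δ)
    (hfin : {G | TZ.S.base (Cm n) (Cm p) f Δ G ≠ 0}.Finite) (hm : MildExc n p f Δ) (y : X)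
    (e : X → ℂ) (he : J.HolAt (Cm n) e y) (he0 : e y = 0) (hde : J.dif (Cm n) e y ≠ 0)
    (hS : ∀ᶠ w in 𝓝 y, (∃ G, TZ.S.base (Cm n) (Cm p) f Δ G ≠ 0 ∧ f w ∈ G) ↔ e w = 0) :
    Case n p f Δ (TZ.S.base (Cm n) (Cm p) f Δ) y e := by
  classical
  obtain ⟨hΔfin, hpr, hrat, -⟩ := hΔ
  have hΔ0 : ∀ D, 0 ≤ Δ D := fun D => by
    obtain ⟨q, hq, h0, -⟩ := hrat D
    rw [hq]
    exact_mod_cast h0
  have hΔ1 : ∀ D, Δ D ≤ 1 := fun D => by
    obtain ⟨q, hq, -, h1⟩ := hrat D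
    rw [hq]
    exact_mod_cast h1
  have hΓ1 : ∀ G, 0 ≤ 1 - TZ.S.base (Cm n) (Cm p) f Δ G := by
    intro G
    by_cases hG : J.IsPrime (Cm p) G
    · rw [base_of hG]
      have := H964.coef_le_one (mm n p f Δ G)
      linarith
    · rw [base_not hG]
      norm_num
  -- `f⁻¹(G)` near `y`
  have hnear : ∀ G, TZ.S.base (Cm n) (Cm p) f Δ G ≠ 0 → f y ∈ G →
      ∀ᶠ w in 𝓝 y, w ∈ f ⁻¹' G ↔ e w = 0 := by
    intro G hG hyG
    have hGp := isPrime_of hG
    obtain ⟨g, hg⟩ := hGp.2.1 (f y)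
    have h1 : ∀ᶠ w in 𝓝 y, f w ∈ G ↔ g (f w) = 0 :=
      hf.continuous.continuousAt.eventually (H511.Gen.isLocalEq_mem_iff hg)
    have hh : J.HolAt (Cm n) (fun w => g (f w)) y :=
      ContMDiffAt.comp y (H511.Gen.isLocalEq_holAt hg) (hf y)
    have h2 : ∀ᶠ w in 𝓝 y, g (f w) = 0 → e w = 0 := by
      filter_upwards [h1, hS] with w h3 h4 h5
      exact h4.1 ⟨G, hG, h3.2 h5⟩
    have h3 := H511.Gen.zero_of_codim he he0 hde hh (h1.self_of_nhds.1 hyG) h2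
    filter_upwards [h1, h2, h3] with w h4 h5 h6
    exact ⟨fun h => h5 (h4.1 h), fun h => h4.2 (h6 h)⟩
  obtain ⟨G₁, hG₁, hyG₁⟩ := hS.self_of_nhds.2 he0
  have hG₁p := isPrime_of hG₁
  have hex := exists_notMem hsurj hG₁p
  obtain ⟨P, hP, hPD, hPe⟩ := hI n X (f ⁻¹' G₁) (hG₁p.1.preimage hf.continuous)
    (H511.Gen.isHyp_preimage hf hG₁p.2.1 (H511.Gen.not_eventually_preimage hf hG₁p.2.1 hex))
    y e he he0 hde (hnear G₁ hG₁ hyG₁)
  have hPmem := H511.Gen.isLocalEq_mem_iff hPe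
  have hyP : y ∈ P := hPmem.self_of_nhds.2 he0
  have hsm : y ∈ sm n P := H511.Gen.mem_sm he he0 hde hPmem
  -- the components which contain `f y` contain `f(P)`
  have hover : ∀ G, TZ.S.base (Cm n) (Cm p) f Δ G ≠ 0 → (f y ∈ G ↔ f '' P ⊆ G) := by
    intro G hG
    refine ⟨fun hyG => ?_, fun h => h (mem_image_of_mem f hyP)⟩
    rw [image_subset_iff]
    refine H511.Gen.subset_of_eventually hP (H511.Gen.isAnalyticSet_preimage hf
      (H511.Gen.isAnalyticSet_prime (isPrime_of hG))) hsm ?_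
    filter_upwards [hnear G hG hyG, hPmem] with w h1 h2 h3
    exact h1.2 (h2.1 h3)
  have hOver : Over n p f Δ P = {G | TZ.S.base (Cm n) (Cm p) f Δ G ≠ 0 ∧ f y ∈ G} := by
    ext G
    constructor
    · rintro ⟨h1, h2⟩
      exact ⟨h1, (hover G h1).2 h2⟩
    · rintro ⟨h1, h2⟩
      exact ⟨h1, (hover G h1).1 h2⟩
  have hδ : 1 - ∑ᶠ (D : Set X) (_ : y ∈ D), Δ D ≤ 1 - Δ P := by
    have e1 : (∑ᶠ (_ : y ∈ P), Δ P) = Δ P := finsum_eq_if.trans (if_pos hyP)
    have h10 := single_le_finsum (f := fun D : Set X => ∑ᶠ (_ : y ∈ D), Δ D) P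
      (hΔfin.subset fun D' hD' => by
        intro h
        apply hD'
        change (∑ᶠ (_ : y ∈ D'), Δ D') = 0
        rw [h]
        exact finsum_zero) (fun D' => by
        change 0 ≤ ∑ᶠ (_ : y ∈ D'), Δ D'
        rw [finsum_eq_if]
        split_ifs
        · exact hΔ0 D'
        · exact le_rfl)
    have h11 := e1.symm.le.trans h10
    linarith
  -- a neighbourhood on which `P` is given by `e`
  obtain ⟨W, hWP, hWo, hyW⟩ := eventually_nhds_iff.1 hPmem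
  have hWn : W ∈ 𝓝 y := hWo.mem_nhds hyW
  by_cases hcl : J.IsPrime (Cm p) (closure (f '' P))
  · -- `P` dominates `G₁`
    left
    intro κ hκ
    have h5 : closure (f '' P) = G₁ := H511.Gen.prime_eq_of_subset hcl hG₁p
      (closure_minimal (image_subset_iff.2 hPD) hG₁p.1)
    obtain ⟨hk, g, u, hg, hu, hu0, hgf⟩ := hκ G₁ hG₁ hyG₁
    have h6 : sInf (mulSet n p f P G₁) ≤ κ G₁ :=
      Nat.sInf_le ⟨y, hyP, e, g, u, hPe, hg, hu, hu0, hgf⟩
    have h7 : mm n p f Δ G₁ ≤ ((sInf (mulSet n p f P G₁) : ℕ) : ℝ≥0∞) *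
        (1 - ENNReal.ofReal (Δ P))⁻¹ :=
      iInf₂_le P ⟨hP, h5⟩
    have h8 : 1 - Δ P ≤ κ G₁ * (1 - TZ.S.base (Cm n) (Cm p) f Δ G₁) := by
      rw [base_of hG₁p] at hG₁ ⊢
      exact H964.coef_le hk h6 (hΔ0 P) (hΔ1 P) h7 hG₁
    refine hδ.trans (h8.trans ?_)
    have e1 : (∑ᶠ (_ : TZ.S.base (Cm n) (Cm p) f Δ G₁ ≠ 0 ∧ f y ∈ G₁),
        (κ G₁ : ℝ) * (1 - TZ.S.base (Cm n) (Cm p) f Δ G₁)) =
        (κ G₁ : ℝ) * (1 - TZ.S.base (Cm n) (Cm p) f Δ G₁) :=
      finsum_eq_if.trans (if_pos ⟨hG₁, hyG₁⟩)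
    have h10 := single_le_finsum (f := fun G : Set Y =>
      ∑ᶠ (_ : TZ.S.base (Cm n) (Cm p) f Δ G ≠ 0 ∧ f y ∈ G),
        (κ G : ℝ) * (1 - TZ.S.base (Cm n) (Cm p) f Δ G)) G₁
      (hfin.subset fun G hG => by
        intro h
        apply hG
        change (∑ᶠ (_ : TZ.S.base (Cm n) (Cm p) f Δ G ≠ 0 ∧ f y ∈ G),
          (κ G : ℝ) * (1 - TZ.S.base (Cm n) (Cm p) f Δ G)) = 0
        rw [finsum_eq_if, if_neg fun h' => h'.1 h]) (fun G => by
        change 0 ≤ ∑ᶠ (_ : TZ.S.base (Cm n) (Cm p) f Δ G ≠ 0 ∧ f y ∈ G),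
          (κ G : ℝ) * (1 - TZ.S.base (Cm n) (Cm p) f Δ G)
        rw [finsum_eq_if]
        split_ifs
        · exact mul_nonneg (Nat.cast_nonneg _) (hΓ1 G)
        · exact le_rfl)
    exact e1.symm.le.trans h10
  rcases hm P hP with h | h | ⟨-, h | h | h⟩
  · exact absurd h (not_dense hG₁p hPD)
  · exact absurd h hcl
  · -- at most one component
    right
    obtain ⟨q, rfl⟩ : ∃ q, p = q + 1 := by
      rcases p with _ | q
      · exfalso
        obtain ⟨y, -, g, -, hdg⟩ := hG₁p.2.2.nonempty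
        exact hdg (ContinuousLinearMap.ext fun v => by
          rw [Subsingleton.elim v 0, map_zero, map_zero])
      · exact ⟨q, rfl⟩
    have hPG : f '' P ⊆ G₁ := image_subset_iff.2 hPD
    rcases dich_glob hf (H511.Gen.isAnalyticSet_prime hP) hG₁p hPG with h1 | h1
    · exfalso
      apply hcl
      have h2 : f '' P = G₁ := hPG.antisymm h1
      rw [h2, hG₁p.1.closure_eq]
      exact hG₁p
    · refine ⟨W, hWn, fun w hw hw0 V hV => ?_⟩
      have hwP : w ∈ P := (hWP w hw).2 hw0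
      have h2 : f w ∈ closure (sm (q + 1) G₁) :=
        H511.Gen.subset_closure_sm hG₁p.2.1 (hPG (mem_image_of_mem f hwP))
      obtain ⟨v₀, hv₀V, hv₀⟩ := mem_closure_iff_nhds.1 h2 (interior V) (interior_mem_nhds.2 hV)
      obtain ⟨v, ⟨hvV, hvG⟩, hvP⟩ := h1 (interior V) isOpen_interior ⟨v₀, hv₀V, hv₀⟩
      refine ⟨v, interior_subset hvV, fun G hG hyG => ?_, fun x hx hx0 hxv => hvP ?_⟩
      · have h3 : G = G₁ := h (show G ∈ Over n (q + 1) f Δ P by rw [hOver]; exact ⟨hG, hyG⟩)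
          (show G₁ ∈ Over n (q + 1) f Δ P by rw [hOver]; exact ⟨hG₁, hyG₁⟩)
        rw [h3]
        exact hvG.1
      · rw [← hxv]
        exact mem_image_of_mem f ((hWP x hx).2 hx0)
  · -- the image contains no open part of the stratum
    right
    refine ⟨W, hWn, fun w hw hw0 V hV => ?_⟩
    have hwP : w ∈ P := (hWP w hw).2 hw0
    have h2 : f w ∈ ⋂₀ Over n p f Δ P := fun G hG => hG.2 (mem_image_of_mem f hwP)
    by_contra hcon
    push Not at hcon
    have h3 : interior V ∩ ⋂₀ Over n p f Δ P ⊆ f '' P := by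
      rintro v ⟨hvV, hvG⟩
      obtain ⟨x, hx, hx0, hxv⟩ := hcon v (interior_subset hvV) fun G hG hyG =>
        hvG G (by rw [hOver]; exact ⟨hG, hyG⟩)
      exact ⟨x, (hWP x hx).2 hx0, hxv⟩
    have h4 := h (interior V) isOpen_interior h3
    have h5 : f w ∈ interior V ∩ ⋂₀ Over n p f Δ P := ⟨mem_interior_iff_mem_nhds.2 hV, h2⟩
    rw [h4] at h5
    exact h5
  · -- the numerical condition
    left
    intro κ hκ
    refine hδ.trans (h.trans ?_)
    have hfin' : (Over n p f Δ P).Finite := hfin.subset fun G hG => hG.1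
    have e1 : ∑ᶠ (G : Set Y) (_ : TZ.S.base (Cm n) (Cm p) f Δ G ≠ 0 ∧ f y ∈ G),
        (κ G : ℝ) * (1 - TZ.S.base (Cm n) (Cm p) f Δ G) =
        ∑ᶠ G ∈ Over n p f Δ P, (κ G : ℝ) * (1 - TZ.S.base (Cm n) (Cm p) f Δ G) := by
      rw [hOver]
      rfl
    rw [e1, finsum_mem_eq_finite_toFinset_sum _ hfin', finsum_mem_eq_finite_toFinset_sum _ hfin']
    refine Finset.sum_le_sum fun G hG => ?_
    have hG' : G ∈ Over n p f Δ P := hfin'.mem_toFinset.1 hG
    rw [hOver] at hG'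
    obtain ⟨hk, g, u, hg, hu, hu0, hgf⟩ := hκ G hG'.1 hG'.2
    have h6 : ordD n p f P G ≤ κ G :=
      Nat.sInf_le ⟨y, hyP, e, g, u, hPe, hg, hu, hu0, hgf⟩
    exact mul_le_mul_of_nonneg_right (by exact_mod_cast h6) (hΓ1 G)

end

/-- `κ(Y, K_Y + B(f, Δ)) ≤ kodF f Δ` for mild exceptional divisors -/
theorem base_le {n p : ℕ} {X Y : Type} [TopologicalSpace X] [ChartedSpace (Cm n) X]
    [TopologicalSpace Y] [ChartedSpace (Cm p) Y] {f : X → Y} {Δ : Set X → ℝ}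
    (h : H511.Surf.IsFibration (Cm n) (Cm p) f Δ) (hm : MildExc n p f Δ) :
    TZ.S.kodX (Cm p) (TZ.S.base (Cm n) (Cm p) f Δ) ≤ TZ.S.kodF n p Δ (id : X → X) f := by
  obtain ⟨⟨_, _⟩, _, _, ⟨_, _⟩, hf, hc, hΔ⟩ := h
  have hsurj : Function.Surjective f := fun y => (hc y).nonempty
  have hsub := H364.Gen.exists_submersive (H364.crit H150.Gen.img) H383.Gen.compl hf hc
  obtain ⟨h1, h2, h3⟩ := bdry H303.Gen.irr H969.Gen.fin (H364.crit H150.Gen.img) H383.Gen.compl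
    hf hc hΔ
  rw [TZ.S.kodF_eq]
  exact comp_x H413.TZ.genPart hΔ H511.Gen.isBigOpen_id hf hsub ⟨h1, h2, h3⟩
    (nc H303.Gen.irr hf hsurj h1 hm) hΔ (H511.Gen.isRestriction_id Δ)
    (case H303.Gen.irr hf hsurj hΔ h1 hm)

end Vale.Agent.P281.H303.X
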