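import Vale.Agent.P281.H303.X.Opn

/-!
# P281 (helper303): mild exceptional divisors; the pull-backs of the sections of `m (K_Y + Γ)` are
bounded at the generic points
-/

open scoped Manifold ContDiff Topology
open Set Filter Metric Vale.Agent.P281 Vale.Agent.P272.K
open Vale.Agent.P281.MF Vale.Agent.P281.ISO Vale.Agent.P281.ELL Vale.Agent.P281.H713

set_option linter.all false

noncomputable section

namespace Vale.Agent.P281.H303.X

open Vale.Agent.P281.H713.TZ Vale.Agent.P281.H713.SA Vale.Agent.P281.H713.CO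

/-- The condition at the point `y` of the smooth hypersurface `e = 0`, which is mapped to `Γ`: if
`κ(G)` is the order of `f^* G` along `e = 0`, then `∑_G κ(G) (1 - Γ(G)) ≥ 1 - δ`; or the image of
`e = 0` contains no open subset of the stratum of `Γ`. -/
def Case (n p : ℕ) {Z Y : Type} [TopologicalSpace Z] [ChartedSpace (Cm n) Z] [TopologicalSpace Y]
    [ChartedSpace (Cm p) Y] (f : Z → Y) (Δ' : Set Z → ℝ) (Γ : Set Y → ℝ) (y : Z) (e : Z → ℂ) :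
    Prop :=
  (∀ κ : Set Y → ℕ, (∀ G, Γ G ≠ 0 → f y ∈ G → 0 < κ G ∧ ∃ (g : Y → ℂ) (u : Z → ℂ),
      J.IsLocalEq (Cm p) G g (f y) ∧ J.HolAt (Cm n) u y ∧ u y ≠ 0 ∧
      ∀ᶠ w in 𝓝 y, g (f w) = e w ^ κ G * u w) →
    1 - ∑ᶠ (D : Set Z) (_ : y ∈ D), Δ' D ≤
      ∑ᶠ (G : Set Y) (_ : Γ G ≠ 0 ∧ f y ∈ G), (κ G : ℝ) * (1 - Γ G)) ∨
  ∃ W ∈ 𝓝 y, ∀ w ∈ W, e w = 0 → ∀ V ∈ 𝓝 (f w), ∃ v ∈ V,
    (∀ G, Γ G ≠ 0 → f y ∈ G → v ∈ G) ∧ ∀ x ∈ W, e x = 0 → f x ≠ v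

variable {n p : ℕ} {Z Y : Type} [TopologicalSpace Z] [ChartedSpace (Cm n) Z]
  [IsManifold 𝓘(ℂ, Cm n) ω Z] [TopologicalSpace Y] [ChartedSpace (Cm p) Y]
  [IsManifold 𝓘(ℂ, Cm p) ω Y]

/-- the pull-backs are bounded at the generic points -/
theorem bd_x {f : Z → Y} (hf : ∀ z, HolM (Cm n) (Cm p) f z) {Γ : Set Y → ℝ}
    (hΓ1 : ∀ G, Γ G ≤ 1) {Δ' : Set Z → ℝ} (hΔ' : J.IsSNC (Cm n) Δ')
    {m : ℕ} (hm : 0 < m) {k : Set Y → ℕ}
    (hk : ∀ G, (k G : ℝ) = m * Γ G) {K : Set Z → ℕ} (hK : ∀ D, (K D : ℝ) = m * Δ' D)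
    {y : Z} {y₀ : Y} (hy : f y ∈ (chartAt (Cm p) y₀).source)
    {c : Z → Cm n} (hc : HolV (Cm n) c y) (hcu : IsUnit (dV (Cm n) c y))
    (I : Fin (m * p) → Fin n) {T : Finset (Set Z)} {gT : Set Z → Z → ℂ}
    (hT : ∀ D, K D ≠ 0 → D ∈ T) (hgT : ∀ D ∈ T, IsLocalEq (Cm n) D (gT D) y)
    {TY : Finset (Set Y)} {gY : Set Y → Y → ℂ} (hTY : ∀ G, k G ≠ 0 → G ∈ TY)
    (hgY : ∀ G ∈ TY, IsLocalEq (Cm p) G (gY G) (f y))
    {e : Z → ℂ} (he : HolV (Cm n) e y) (he0 : e y = 0) (hde : dif (Cm n) e y ≠ 0)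
    (hgenT : ∀ D ∈ T, (∀ᶠ w in 𝓝 y, gT D w = 0) ∨ ∃ (k : ℕ) (u : Z → ℂ), HolV (Cm n) u y ∧
      u y ≠ 0 ∧ ∀ᶠ w in 𝓝 y, gT D w = e w ^ k * u w)
    (hgenY : ∀ G ∈ TY, k G ≠ 0 → ∃ (k : ℕ) (u : Z → ℂ), HolV (Cm n) u y ∧
      u y ≠ 0 ∧ ∀ᶠ w in 𝓝 y, gY G (f w) = e w ^ k * u w)
    (hex : ∃ G, k G ≠ 0 ∧ f y ∈ G) (hΓe : ∀ᶠ w in 𝓝 y, IsSNCAt (Cm p) Γ (f w))
    (hcase : Case n p f Δ' Γ y e) :
    ∃ C : ℝ, ∀ᶠ w in 𝓝 y, e w ≠ 0 →
      ‖tq m ((dV (Cm n) (fun z => (chartAt (Cm p) y₀ : Y → Cm p) (f z)) w).comp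
        (Ring.inverse (dV (Cm n) c w))) I‖ * ‖∏ D ∈ T, gT D w ^ K D‖ ≤
        C * ‖∏ G ∈ TY, gY G (f w) ^ k G‖ := by
  classical
  have hm0 : (m : ℝ) ≠ 0 := by exact_mod_cast hm.ne'
  have hkΓ : ∀ G, k G ≠ 0 ↔ Γ G ≠ 0 := by
    intro G
    have h1 := hk G
    constructor
    · intro h2 h3
      rw [h3, mul_zero] at h1
      exact h2 (by exact_mod_cast h1)
    · intro h2 h3
      rw [h3, Nat.cast_zero] at h1
      exact mul_ne_zero hm0 h2 h1.symm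
  -- the orders
  have hch : ∀ G, ∃ (κ : ℕ) (u : Z → ℂ), k G ≠ 0 → HolV (Cm n) u y ∧ u y ≠ 0 ∧
      ∀ᶠ w in 𝓝 y, gY G (f w) = e w ^ κ * u w := by
    intro G
    by_cases hG : k G ≠ 0
    · obtain ⟨κ, u, h1⟩ := hgenY G (hTY G hG) hG
      exact ⟨κ, u, fun _ => h1⟩
    · exact ⟨0, 0, fun h => absurd h hG⟩
  choose κ u hκu using hch
  have hκ0 : ∀ G, k G ≠ 0 → f y ∈ G → 0 < κ G := by
    intro G hG hyG
    obtain ⟨h1, h2, h3⟩ := hκu G hG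
    rcases Nat.eq_zero_or_pos (κ G) with h0 | h0
    · exfalso
      have h4 := h3.self_of_nhds
      rw [(hgY G (hTY G hG)).mem_iff.1 hyG, h0, pow_zero, one_mul] at h4
      exact h2 h4.symm
    · exact h0
  have hκn : ∀ G, k G ≠ 0 → f y ∉ G → κ G = 0 := by
    intro G hG hyG
    obtain ⟨h1, h2, h3⟩ := hκu G hG
    by_contra h0
    have h4 := h3.self_of_nhds
    rw [he0, zero_pow h0, zero_mul] at h4
    exact hyG ((hgY G (hTY G hG)).mem_iff.2 h4)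
  -- the components through `f y`
  set TA : Finset (Set Y) := TY.filter fun G => Γ G ≠ 0 ∧ f y ∈ G with hTA
  have hTAm : ∀ G, G ∈ TA ↔ (Γ G ≠ 0 ∧ f y ∈ G) := by
    intro G
    rw [hTA, Finset.mem_filter]
    exact ⟨fun h => h.2, fun h => ⟨hTY G ((hkΓ G).2 h.1), h⟩⟩
  haveI : Fintype {G // Γ G ≠ 0 ∧ f y ∈ G} := Fintype.ofFinset TA fun G => hTAm G
  obtain ⟨G₁, hG₁, hyG₁⟩ := hex
  set a₁ : {G // Γ G ≠ 0 ∧ f y ∈ G} := ⟨G₁, (hkΓ G₁).1 hG₁, hyG₁⟩ with ha₁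
  have hΓ : IsSNCAt (Cm p) Γ (f y) := hΓe.self_of_nhds
  have hsur := hΓ gY fun G hG hyG => hgY G (hTY G ((hkΓ G).2 hG))
  obtain ⟨N, C', hN, hC'0, hC'⟩ := pole_at hΔ' hK hT hm hgT he he0 hgenT
  -- the exponents
  have hsum : ∑ a : {G // Γ G ≠ 0 ∧ f y ∈ G}, κ a * k a = ∑ G ∈ TY, κ G * k G := by
    rw [← Finset.sum_subtype TA hTAm fun G => κ G * k G]
    refine Finset.sum_subset (Finset.filter_subset _ _) fun G hG hGn => ?_
    by_cases h0 : k G = 0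
    · rw [h0, mul_zero]
    · have h1 : f y ∉ G := fun h1 => hGn ((hTAm G).2 ⟨(hkΓ G).1 h0, h1⟩)
      rw [hκn G h0 h1, zero_mul]
  have hpos : 1 ≤ ∑ a : {G // Γ G ≠ 0 ∧ f y ∈ G}, κ a :=
    le_trans (hκ0 G₁ hG₁ hyG₁) (Finset.single_le_sum
      (f := fun a : {G // Γ G ≠ 0 ∧ f y ∈ G} => κ a) (fun a _ => Nat.zero_le _)
      (Finset.mem_univ a₁))
  -- the order of the pull-back of the top form
  obtain ⟨q, C, hC0, hC, hq⟩ : ∃ (q : ℕ) (C : ℝ), 0 ≤ C ∧ (∀ᶠ w in 𝓝 y, e w ≠ 0 →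
      ‖tq m ((dV (Cm n) (fun z => (chartAt (Cm p) y₀ : Y → Cm p) (f z)) w).comp
        (Ring.inverse (dV (Cm n) c w))) I‖ ≤ C * ‖e w‖ ^ (m * q)) ∧
      ∑ G ∈ TY, κ G * k G ≤ m * q + N := by
    rcases hcase with hsumc | ⟨W, hW, hno⟩
    · obtain ⟨C, hC0, hC⟩ := tq_bound_s hf hy hc hcu a₁ he
        (w := fun a : {G // Γ G ≠ 0 ∧ f y ∈ G} => u a) (fun a => (hκu a ((hkΓ _).2 a.2.1)).1)
        (hκu a₁ ((hkΓ _).2 a₁.2.1)).2.1 (g := fun a => gY a)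
        (fun a => (hgY a (hTY a ((hkΓ _).2 a.2.1))).holAt) hsur (κ := fun a => κ a)
        (fun a => hκ0 a ((hkΓ _).2 a.2.1) a.2.2) (fun a => (hκu a ((hkΓ _).2 a.2.1)).2.2) m I
      refine ⟨∑ a : {G // Γ G ≠ 0 ∧ f y ∈ G}, κ a - 1, C, hC0, hC, ?_⟩
      have hmor₂ : 1 - ∑ᶠ (D : Set Z) (_ : y ∈ D), Δ' D ≤
          ∑ a : {G // Γ G ≠ 0 ∧ f y ∈ G}, (κ a : ℝ) * (1 - Γ a) := by
        have h2 := hsumc κ fun G hG hyG => ⟨hκ0 G ((hkΓ G).2 hG) hyG, gY G, u G,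
          hgY G (hTY G ((hkΓ G).2 hG)), (hκu G ((hkΓ G).2 hG)).1, (hκu G ((hkΓ G).2 hG)).2.1,
          (hκu G ((hkΓ G).2 hG)).2.2⟩
        refine h2.trans (le_of_eq ?_)
        rw [← Finset.sum_subtype TA hTAm fun G => (κ G : ℝ) * (1 - Γ G),
          ← finsum_mem_coe_finset]
        refine finsum_congr fun G => ?_
        refine finsum_congr_Prop ?_ fun _ => rfl
        rw [Finset.mem_coe, hTAm]
      rw [← hsum]
      have h2 : ((∑ a : {G // Γ G ≠ 0 ∧ f y ∈ G}, κ a * k a : ℕ) : ℝ) ≤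
          ((m * (∑ a : {G // Γ G ≠ 0 ∧ f y ∈ G}, κ a - 1) + N : ℕ) : ℝ) := by
        push_cast [Nat.cast_sub hpos]
        rw [hN]
        have h3 : ∑ a : {G // Γ G ≠ 0 ∧ f y ∈ G}, (κ a : ℝ) * (k a : ℝ) =
            m * ∑ a : {G // Γ G ≠ 0 ∧ f y ∈ G}, (κ a : ℝ) -
            m * ∑ a : {G // Γ G ≠ 0 ∧ f y ∈ G}, (κ a : ℝ) * (1 - Γ a) := by
          rw [Finset.mul_sum, Finset.mul_sum, ← Finset.sum_sub_distrib]
          refine Finset.sum_congr rfl fun a _ => ?_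
          rw [hk]
          ring
        rw [h3]
        have h4 := mul_le_mul_of_nonneg_left hmor₂ (Nat.cast_nonneg (α := ℝ) m)
        nlinarith [h4]
      exact_mod_cast h2
    · have hn : ∀ᶠ z in 𝓝 y, e z = 0 → ¬ SubAt (n := n) (p := p) f e
          (fun a : {G // Γ G ≠ 0 ∧ f y ∈ G} => gY a) z := by
        have hgYe : ∀ᶠ z in 𝓝 y, ∀ G ∈ TY, IsLocalEq (Cm p) G (gY G) (f z) := by
          rw [Filter.eventually_all_finset]
          intro G hG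
          exact (hf y).continuousAt.eventually (hgY G hG).eventually
        have hκe : ∀ᶠ z in 𝓝 y, ∀ a : {G // Γ G ≠ 0 ∧ f y ∈ G},
            gY a (f z) = e z ^ κ a * u a z :=
          eventually_all.2 fun a => (hκu a ((hkΓ _).2 a.2.1)).2.2
        filter_upwards [eventually_eventually_nhds.2 (eventually_mem_nhds_iff.2 hW |>.and hW), hΓe,
          HolV.eventually (E := Cm n) he, dif_ne_eventually he hde, hgYe,
          eventually_eventually_nhds.2 hκe] with z hzW hzΓ hze hzde hzg hzκ hz0 hsub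
        have hzWn : W ∈ 𝓝 z := hzW.self_of_nhds.1
        have hzW0 : z ∈ W := hzW.self_of_nhds.2
        have hmemf : ∀ a : {G // Γ G ≠ 0 ∧ f y ∈ G}, f z ∈ (a : Set Y) := by
          intro a
          refine (hzg a (hTY a ((hkΓ _).2 a.2.1))).mem_iff.2 ?_
          have h1 := hzκ.self_of_nhds a
          rw [h1, hz0, zero_pow (hκ0 a ((hkΓ _).2 a.2.1) a.2.2).ne', zero_mul]
        have hdg : Function.Surjective fun (ξ : Cm p) (a : {G // Γ G ≠ 0 ∧ f y ∈ G}) =>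
            dif (Cm p) (gY a) (f z) ξ := by
          intro v
          obtain ⟨ξ, hξ⟩ := hzΓ gY (fun G hG _ => hzg G (hTY G ((hkΓ G).2 hG)))
            (fun G => if h : f y ∈ (G : Set Y) then v ⟨G, G.2.1, h⟩ else 0)
          refine ⟨ξ, ?_⟩
          funext a
          have h2 := congrFun hξ ⟨a, a.2.1, hmemf a⟩
          have h3 : dif (Cm p) (gY a) (f z) ξ = if h : f y ∈ (a : Set Y) then
            v ⟨a, a.2.1, h⟩ else 0 := h2
          show dif (Cm p) (gY a) (f z) ξ = v a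
          rw [h3, dif_pos a.2.2]
        obtain ⟨V, hV, hVe⟩ := image_of_sub hf hze hz0 hzde
          (fun a : {G // Γ G ≠ 0 ∧ f y ∈ G} => (hzg a (hTY a ((hkΓ _).2 a.2.1))).holAt) hdg
          (fun a => by
            filter_upwards [hzκ] with x hx hx0
            rw [hx a, hx0, zero_pow (hκ0 a ((hkΓ _).2 a.2.1) a.2.2).ne', zero_mul]) hsub hzWn
        have hVg : ∀ᶠ v in 𝓝 (f z), ∀ a : {G // Γ G ≠ 0 ∧ f y ∈ G}, v ∈ (a : Set Y) →
            gY a v = 0 := by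
          refine eventually_all.2 fun a => ?_
          have h1 := (hzg a (hTY a ((hkΓ _).2 a.2.1))).eventually
          filter_upwards [h1] with v hv hva
          exact hv.mem_iff.1 hva
        obtain ⟨v, ⟨hvV, hvg⟩, hvG, hvx⟩ := hno z hzW0 hz0 _ (inter_mem hV hVg)
        obtain ⟨x, hxW, hx0, hxv⟩ := hVe v hvV fun a => hvg a (hvG a a.2.1 a.2.2)
        exact hvx x hxW hx0 hxv
      obtain ⟨C, hC0, hC⟩ := tq_bound_n hf hy hc hcu a₁ he he0 hde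
        (w := fun a : {G // Γ G ≠ 0 ∧ f y ∈ G} => u a) (fun a => (hκu a ((hkΓ _).2 a.2.1)).1)
        (hκu a₁ ((hkΓ _).2 a₁.2.1)).2.1 (g := fun a => gY a)
        (fun a => (hgY a (hTY a ((hkΓ _).2 a.2.1))).holAt) hsur (κ := fun a => κ a)
        (fun a => hκ0 a ((hkΓ _).2 a.2.1) a.2.2) (fun a => (hκu a ((hkΓ _).2 a.2.1)).2.2) hn m I
      refine ⟨∑ a : {G // Γ G ≠ 0 ∧ f y ∈ G}, κ a, C, hC0, hC, ?_⟩
      rw [← hsum, Finset.mul_sum]
      refine le_add_right (Finset.sum_le_sum fun a _ => ?_)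
      rw [mul_comm]
      refine Nat.mul_le_mul_right _ ?_
      have h1 : (k a : ℝ) ≤ m := by
        rw [hk]
        exact mul_le_of_le_one_right (Nat.cast_nonneg m) (hΓ1 _)
      exact_mod_cast h1
  -- the value of the equations of the poles
  set P := ∑ G ∈ TY, κ G * k G with hP
  set U : Z → ℂ := fun w => ∏ G ∈ TY, u G w ^ k G with hU
  have hU0 : U y ≠ 0 := by
    refine Finset.prod_ne_zero_iff.2 fun G hG => ?_
    by_cases h0 : k G = 0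
    · simp [h0]
    · exact pow_ne_zero _ (hκu G h0).2.1
  have hUc : ContinuousAt U y := by
    refine tendsto_finsetProd _ fun G hG => ?_
    by_cases h0 : k G = 0
    · simp only [h0, pow_zero]
      exact tendsto_const_nhds
    · exact ((hκu G h0).1.continuousAt.pow _)
  have hPY : ∀ᶠ w in 𝓝 y, ∏ G ∈ TY, gY G (f w) ^ k G = e w ^ P * U w := by
    have h2 : ∀ᶠ w in 𝓝 y, ∀ G ∈ TY, k G ≠ 0 → gY G (f w) = e w ^ κ G * u G w := by
      rw [Filter.eventually_all_finset]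
      intro G hG
      by_cases h0 : k G = 0
      · exact Eventually.of_forall fun w h => absurd h0 h
      · exact (hκu G h0).2.2.mono fun w hw _ => hw
    filter_upwards [h2] with w hw
    rw [hU, hP, ← Finset.prod_pow_eq_pow_sum, ← Finset.prod_mul_distrib]
    refine Finset.prod_congr rfl fun G hG => ?_
    by_cases h0 : k G = 0
    · simp [h0]
    · rw [hw G hG h0, mul_pow, ← pow_mul]
  have he1 : ∀ᶠ w in 𝓝 y, ‖e w‖ < 1 := by
    have h2 : ‖e y‖ < 1 := by rw [he0, norm_zero]; exact one_pos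
    exact he.continuousAt.norm.eventually_lt_const h2
  have hUn : ∀ᶠ w in 𝓝 y, ‖U y‖ / 2 < ‖U w‖ :=
    hUc.norm.eventually_const_lt (half_lt_self (norm_pos_iff.2 hU0))
  refine ⟨C * C' / (‖U y‖ / 2), ?_⟩
  filter_upwards [hC, hC', hPY, he1, hUn] with w h2 h3 h4 h5 h6 h7
  have hU2 : 0 < ‖U y‖ / 2 := by
    have := norm_pos_iff.2 hU0
    positivity
  have h8 : ‖e w‖ ^ (m * q) * ‖e w‖ ^ N ≤ ‖e w‖ ^ P := by
    rw [← pow_add]
    exact pow_le_pow_of_le_one (norm_nonneg _) h5.le hq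
  rw [h4, norm_mul, norm_pow]
  calc ‖tq m ((dV (Cm n) (fun z => (chartAt (Cm p) y₀ : Y → Cm p) (f z)) w).comp
        (Ring.inverse (dV (Cm n) c w))) I‖ * ‖∏ D ∈ T, gT D w ^ K D‖
      ≤ (C * ‖e w‖ ^ (m * q)) * (C' * ‖e w‖ ^ N) :=
        mul_le_mul (h2 h7) h3 (norm_nonneg _) (by positivity)
    _ = C * C' * (‖e w‖ ^ (m * q) * ‖e w‖ ^ N) := by
        ring
    _ ≤ C * C' * ‖e w‖ ^ P := mul_le_mul_of_nonneg_left h8 (by positivity)
    _ = C * C' / (‖U y‖ / 2) * (‖e w‖ ^ P * (‖U y‖ / 2)) := by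
        field_simp
    _ ≤ C * C' / (‖U y‖ / 2) * (‖e w‖ ^ P * ‖U w‖) := by
        refine mul_le_mul_of_nonneg_left ?_ (by positivity)
        exact mul_le_mul_of_nonneg_left h6.le (by positivity)

end Vale.Agent.P281.H303.X
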