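import Vale.Agent.P281.H713.CO.GMain
import Vale.Agent.P281.H511.Gen.Hyp
import Vale.Agent.P281.H308.Bir.Inv

/-!
# P281 (helper303): mild exceptional divisors; pull-backs of top forms at the generic points of a
hypersurface which is not mapped submersively to a stratum
-/

open scoped Manifold ContDiff Topology
open Set Filter Metric Vale.Agent.P281 Vale.Agent.P272.K
open Vale.Agent.P281.MF Vale.Agent.P281.ISO Vale.Agent.P281.ELL Vale.Agent.P281.H713

set_option linter.all false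

noncomputable section

namespace Vale.Agent.P281.H303.X

open Vale.Agent.P281.H713.TZ Vale.Agent.P281.H713.SA Vale.Agent.P281.H713.CO

variable {n p : ℕ} {Z Y : Type} [TopologicalSpace Z] [ChartedSpace (Cm n) Z]
  [IsManifold 𝓘(ℂ, Cm n) ω Z] [TopologicalSpace Y] [ChartedSpace (Cm p) Y]
  [IsManifold 𝓘(ℂ, Cm p) ω Y]

theorem holV_det {q : ℕ} {N : Z → Matrix (Fin q) (Fin q) ℂ} {y : Z}
    (h : ∀ i b, HolV (Cm n) (fun z => N z i b) y) : HolV (Cm n) (fun z => (N z).det) y := by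
  have h1 : (fun z => (N z).det) = fun z => ∑ s : Equiv.Perm (Fin q),
      ((Equiv.Perm.sign s : ℤ) : ℂ) * ∏ i, N z (s i) i := by
    funext z
    rw [Matrix.det_apply']
  rw [h1]
  exact HolV.sum fun s _ => (HolV.const _ _).mul (HolV.prod fun i _ => h _ _)

theorem holV_app {A : Z → (Cm n →L[ℂ] ℂ)} {y : Z} (h : HolV (Cm n) A y) (v : Cm n) :
    HolV (Cm n) (fun z => A z v) y :=
  HolV.comp_contDiff (G := fun A : Cm n →L[ℂ] ℂ => A v)
    (ContinuousLinearMap.apply ℂ ℂ v).contDiff.contDiffAt h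

theorem holV_appi {A : Z → (Cm n →L[ℂ] Cm p)} {y : Z} (h : HolV (Cm n) A y) (v : Cm n)
    (i : Fin p) : HolV (Cm n) (fun z => A z v i) y :=
  HolV.comp_contDiff (G := fun A : Cm n →L[ℂ] Cm p => A v i)
    (((ContinuousLinearMap.proj (R := ℂ) (φ := fun _ : Fin p => ℂ) i).contDiff.comp
      (ContinuousLinearMap.apply ℂ (Cm p) v).contDiff).contDiffAt) h

/-- The hypersurface `e = 0` is mapped submersively to the stratum `g = 0` at `z`. -/
def SubAt {n p : ℕ} {Z Y : Type} [TopologicalSpace Z] [ChartedSpace (Cm n) Z]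
    [TopologicalSpace Y] [ChartedSpace (Cm p) Y] (f : Z → Y) (e : Z → ℂ) {α : Type}
    (g : α → Y → ℂ) (z : Z) : Prop :=
  ∀ η : Cm p, (∀ a, dif (Cm p) (g a) (f z) η = 0) →
    ∃ ξ : Cm n, dif (Cm n) e z ξ = 0 ∧ dM (Cm n) (Cm p) f z ξ = η

/-- `f^*(dy_1 ∧ … ∧ dy_p)` is divisible by `e^{∑ κ}`, if `e = 0` is nowhere mapped submersively to
the stratum `g = 0` -/
theorem det_bound_n {f : Z → Y} {y : Z} {y₀ : Y} {c : Z → Cm n}
    (hf : ∀ z, HolM (Cm n) (Cm p) f z) (hy : f y ∈ (chartAt (Cm p) y₀).source)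
    (hc : HolV (Cm n) c y) (hu : IsUnit (dV (Cm n) c y)) {α : Type} [Fintype α] (a₁ : α)
    {e : Z → ℂ} (he : HolV (Cm n) e y) (hey : e y = 0) (hde : dif (Cm n) e y ≠ 0)
    {w : α → Z → ℂ} (hw : ∀ a, HolV (Cm n) (w a) y)
    (hw0 : w a₁ y ≠ 0) {g : α → Y → ℂ} (hg : ∀ a, HolV (Cm p) (g a) (f y))
    (hdg : Function.Surjective fun (ξ : Cm p) (a : α) => dif (Cm p) (g a) (f y) ξ)
    {κ : α → ℕ} (hκ : ∀ a, 0 < κ a) (heq : ∀ a, ∀ᶠ z in 𝓝 y, g a (f z) = e z ^ κ a * w a z)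
    (hn : ∀ᶠ z in 𝓝 y, e z = 0 → ¬ SubAt (n := n) (p := p) f e g z)
    (K : Fin p → Fin n) : ∃ C : ℝ, 0 ≤ C ∧ ∀ᶠ z in 𝓝 y, e z ≠ 0 →
      ‖(mK ((dV (Cm n) (fun z => (chartAt (Cm p) y₀ : Y → Cm p) (f z)) z).comp
        (Ring.inverse (dV (Cm n) c z))) K).det‖ ≤ C * ‖e z‖ ^ (∑ a, κ a) := by
  classical
  set ψ := chartAt (Cm p) y₀ with hψ
  have hfc : ContinuousAt f y := (hf y).continuousAt
  have hψf : HolV (Cm n) (fun z => ψ (f z)) y :=
    HolV.comp (h := (ψ : Y → Cm p)) (HolV.chart hy) (hf y)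
  set γ : α → Z → (Cm p →L[ℂ] ℂ) := fun a z => fderiv ℂ (g a ∘ ψ.symm) (ψ (f z)) with hγ
  have hγh : ∀ a, HolV (Cm n) (γ a) y := fun a =>
    HolV.comp_contDiff (G := fderiv ℂ (g a ∘ ψ.symm)) (((hg a).rep hy).fderiv_right (by simp)) hψf
  have hγs : Function.Surjective fun (ξ : Cm p) (a : α) => γ a y ξ := by
    intro v
    obtain ⟨ξ, hξ⟩ := hdg v
    refine ⟨dV (Cm p) (ψ : Y → Cm p) (f y) ξ, ?_⟩
    rw [← hξ]
    funext a
    have h1 := dV_eq_chart hy (hg a)
    show γ a y (dV (Cm p) (ψ : Y → Cm p) (f y) ξ) = dif (Cm p) (g a) (f y) ξ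
    rw [dif_eq_dV, h1]
    rfl
  obtain ⟨σ, hσ, hdet⟩ := exists_compl (fun a => γ a y) hγs
  set B : Z → (Cm p →L[ℂ] Cm p) := fun z => ContinuousLinearMap.pi
    (Function.extend σ (fun a => γ a z) fun i => ContinuousLinearMap.proj i) with hB
  have hBσ : ∀ z a v, B z v (σ a) = γ a z v := by
    intro z a v
    have h1 := hσ.extend_apply (fun a => γ a z)
      (fun i => (ContinuousLinearMap.proj i : Cm p →L[ℂ] ℂ)) a
    show (Function.extend σ (fun a => γ a z)
      (fun i => (ContinuousLinearMap.proj i : Cm p →L[ℂ] ℂ)) (σ a)) v = _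
    rw [h1]
  have hBn : ∀ z i v, (¬ ∃ a, σ a = i) → B z v i = v i := by
    intro z i v hi
    have h1 := Function.extend_apply' (fun a => γ a z)
      (fun i => (ContinuousLinearMap.proj i : Cm p →L[ℂ] ℂ)) i hi
    show (Function.extend σ (fun a => γ a z)
      (fun i => (ContinuousLinearMap.proj i : Cm p →L[ℂ] ℂ)) i) v = _
    rw [h1]
    rfl
  set dB : Z → ℂ := fun z => Matrix.det (Matrix.of fun i j : Fin p => B z (Pi.single j 1) i)
    with hdB
  have hBd : ∀ z, (B z).det = dB z := by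
    intro z
    have h1 : (B z).det = Matrix.det (LinearMap.toMatrix' (B z : Cm p →ₗ[ℂ] Cm p)) := by
      rw [LinearMap.det_toMatrix']
    rw [h1, hdB]
    congr 1
  have hdBh : HolV (Cm n) dB y := by
    refine holV_det fun i j => ?_
    simp only [Matrix.of_apply]
    by_cases hi : ∃ a, σ a = i
    · obtain ⟨a, rfl⟩ := hi
      simp only [hBσ]
      exact HolV.comp_contDiff (G := fun A : Cm p →L[ℂ] ℂ => A (Pi.single j 1))
        (ContinuousLinearMap.apply ℂ ℂ (Pi.single j (1 : ℂ) : Cm p)).contDiff.contDiffAt (hγh a)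
    · have h2 : (fun z => B z (Pi.single j 1 : Cm p) i) = fun z => (Pi.single j 1 : Cm p) i := by
        funext z
        exact hBn z i _ hi
      rw [h2]
      exact HolV.const _ _
  have hdBc : ContinuousAt dB y := hdBh.continuousAt
  have hdB0 : dB y ≠ 0 := by
    rw [← hBd]
    exact hdet
  set 𝒜 : Z → (Cm n →L[ℂ] Cm p) := fun z =>
    (dV (Cm n) (fun z => ψ (f z)) z).comp (Ring.inverse (dV (Cm n) c z)) with h𝒜
  have h𝒜h : HolV (Cm n) 𝒜 y := holV_quot hψf hc hu
  set Re : Z → (Cm n →L[ℂ] ℂ) := fun z =>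
    (dV (Cm n) e z).comp (Ring.inverse (dV (Cm n) c z)) with hRe
  have hReh : HolV (Cm n) Re y := holV_quot he hc hu
  set Rw : α → Z → (Cm n →L[ℂ] ℂ) := fun a z =>
    (dV (Cm n) (w a) z).comp (Ring.inverse (dV (Cm n) c z)) with hRw
  have hRwh : ∀ a, HolV (Cm n) (Rw a) y := fun a => holV_quot (hw a) hc hu
  have hkey : ∀ a, ∀ᶠ z in 𝓝 y, ∀ v, γ a z (𝒜 z v) =
      e z ^ (κ a - 1) * (κ a * w a z * Re z v + e z * Rw a z v) := by
    intro a
    filter_upwards [he.eventually, (hw a).eventually, (heq a).eventually_nhds,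
      hfc.eventually (HolV.eventually (E := Cm p) (hg a)),
      hfc.eventually (ψ.open_source.mem_nhds hy)] with z h1 h2 h3 h4 h5 v
    have h6 : (γ a z).comp (dV (Cm n) (fun z => ψ (f z)) z) = dV (Cm n) (fun z => g a (f z)) z := by
      rw [dV_comp h4 (hf z), dV_comp (h := (ψ : Y → Cm p)) (HolV.chart h5) (hf z),
        dV_eq_chart h5 h4]
      rfl
    have h7 : dV (Cm n) (fun z => g a (f z)) z = dV (Cm n) (fun z => e z ^ κ a * w a z) z := by
      exact Filter.EventuallyEq.mfderiv_eq h3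
    have h8 := dV_pow_mul h1 h2 (hκ a)
    have h9 := congrArg (fun T : Cm n →L[ℂ] ℂ => T (Ring.inverse (dV (Cm n) c z) v))
      (h6.trans (h7.trans h8))
    simp only [ContinuousLinearMap.comp_apply, ContinuousLinearMap.smul_apply,
      ContinuousLinearMap.add_apply, smul_eq_mul] at h9
    exact h9
  set M : Z → Matrix (Fin p) (Fin p) ℂ := fun z => mK ((B z).comp (𝒜 z)) K with hM
  set N : Z → Matrix (Fin p) (Fin p) ℂ := fun z => Function.extend σ (fun a b =>
      if a = a₁ then κ a₁ * w a₁ z * Re z (Pi.single (K b) 1) +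
        e z * Rw a₁ z (Pi.single (K b) 1) else
        Rw a z (Pi.single (K b) 1) - (κ a * w a z) / (κ a₁ * w a₁ z) *
          Rw a₁ z (Pi.single (K b) 1)) (fun i b => M z i b) with hN
  have hMi : ∀ z i b, M z i b = B z (𝒜 z (Pi.single (K b) 1)) i := fun z i b => rfl
  have hNσ : ∀ z a b, N z (σ a) b = if a = a₁ then
      κ a₁ * w a₁ z * Re z (Pi.single (K b) 1) + e z * Rw a₁ z (Pi.single (K b) 1) else
      Rw a z (Pi.single (K b) 1) - (κ a * w a z) / (κ a₁ * w a₁ z) *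
      Rw a₁ z (Pi.single (K b) 1) := fun z a b => congrFun (hσ.extend_apply _ _ a) b
  have hNn : ∀ z i b, (¬ ∃ a, σ a = i) → N z i b = 𝒜 z (Pi.single (K b) 1) i := by
    intro z i b hi
    have h3 : N z i b = M z i b := congrFun (Function.extend_apply' _ _ _ hi) b
    rw [h3, hMi, hBn z i _ hi]
  have hκ₁ : (κ a₁ : ℂ) * w a₁ y ≠ 0 := mul_ne_zero (by exact_mod_cast (hκ a₁).ne') hw0
  have hNh : HolV (Cm n) (fun z => (N z).det) y := by
    refine holV_det fun i b => ?_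
    have hcR : HolV (Cm n) (fun z => Re z (Pi.single (K b) 1)) y := holV_app hReh _
    have hcw : ∀ a, HolV (Cm n) (fun z => Rw a z (Pi.single (K b) 1)) y := fun a =>
      holV_app (hRwh a) _
    by_cases hi : ∃ a, σ a = i
    · obtain ⟨a, rfl⟩ := hi
      simp only [hNσ]
      by_cases ha : a = a₁
      · simp only [if_pos ha]
        exact (((HolV.const _ _).mul (hw a₁)).mul hcR).add (he.mul (hcw a₁))
      · simp only [if_neg ha]
        have h1 : HolV (Cm n) (fun z => -((κ a * w a z) / (κ a₁ * w a₁ z) *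
            Rw a₁ z (Pi.single (K b) 1))) y := by
          have h2 := (HolV.const (E := Cm n) (-1 : ℂ) y).mul
            ((HolV.div ((HolV.const (κ a : ℂ) y).mul (hw a))
              ((HolV.const (κ a₁ : ℂ) y).mul (hw a₁)) hκ₁).mul (hcw a₁))
          refine h2.congr ?_
          exact Eventually.of_forall fun z => by ring
        refine ((hcw a).add h1).congr ?_
        exact Eventually.of_forall fun z => by ring
    · have h2 : (fun z => N z i b) = fun z => 𝒜 z (Pi.single (K b) 1) i := by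
        funext z
        exact hNn z i b hi
      rw [h2]
      exact holV_appi h𝒜h _ i
  have h1 : ∀ᶠ z in 𝓝 y, ∀ a, ∀ v, γ a z (𝒜 z v) =
      e z ^ (κ a - 1) * (κ a * w a z * Re z v + e z * Rw a z v) := eventually_all.2 hkey
  -- `det N = 0` on the hypersurface
  have hN0 : ∀ᶠ z in 𝓝 y, e z = 0 → (N z).det = 0 := by
    filter_upwards [h1, hn, hdBc.eventually_ne hdB0, (hw a₁).continuousAt.eventually_ne hw0,
      hfc.eventually (ψ.open_source.mem_nhds hy), unit_nhds hc hu,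
      hfc.eventually (eventually_all.2 fun a => HolV.eventually (E := Cm p) (hg a))]
      with z h2 h3 h4 h5 h6 h7 h8 hz0
    by_contra hdet0
    apply h3 hz0
    intro η hη
    set η' : Cm p := dV (Cm p) (ψ : Y → Cm p) (f z) η with hη'
    have hγη : ∀ a, γ a z η' = 0 := by
      intro a
      rw [← hη a, dif_eq_dV, dV_eq_chart h6 (h8 a)]
      rfl
    obtain ⟨t, ht⟩ : ∃ t : Fin p → ℂ, (N z).mulVec t =
        fun i => if ∃ a, σ a = i then 0 else η' i := by
      refine ⟨(N z)⁻¹.mulVec (fun i => if ∃ a, σ a = i then 0 else η' i), ?_⟩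
      rw [Matrix.mulVec_mulVec, Matrix.mul_nonsing_inv _ (isUnit_iff_ne_zero.2 hdet0),
        Matrix.one_mulVec]
    set v : Cm n := ∑ b, t b • (Pi.single (K b) 1 : Cm n) with hv
    have hlin : ∀ L : Cm n →L[ℂ] ℂ, L v = ∑ b, L (Pi.single (K b) 1) * t b := by
      intro L
      rw [hv, map_sum]
      refine Finset.sum_congr rfl fun b _ => ?_
      rw [map_smul, smul_eq_mul, mul_comm]
    have hRe0 : Re z v = 0 := by
      have h9 := congrFun ht (σ a₁)
      rw [if_pos ⟨a₁, rfl⟩] at h9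
      have h10 : (N z).mulVec t (σ a₁) = κ a₁ * w a₁ z * Re z v := by
        show ∑ b, N z (σ a₁) b * t b = _
        rw [hlin (Re z), Finset.mul_sum]
        refine Finset.sum_congr rfl fun b _ => ?_
        rw [hNσ, if_pos rfl, hz0]
        ring
      rw [h10] at h9
      exact (mul_eq_zero.1 h9).resolve_left
        (mul_ne_zero (by exact_mod_cast (hκ a₁).ne') h5)
    have h𝒜i : ∀ i, (¬ ∃ a, σ a = i) → 𝒜 z v i = η' i := by
      intro i hi
      have h9 := congrFun ht i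
      rw [if_neg hi] at h9
      have h10 : (N z).mulVec t i = 𝒜 z v i := by
        have h11 := hlin ((ContinuousLinearMap.proj i : Cm p →L[ℂ] ℂ).comp (𝒜 z))
        simp only [ContinuousLinearMap.comp_apply, ContinuousLinearMap.proj_apply] at h11
        rw [h11]
        show ∑ b, N z i b * t b = _
        refine Finset.sum_congr rfl fun b _ => ?_
        rw [hNn z i b hi]
      rw [← h10, h9]
    have hγ𝒜 : ∀ a, γ a z (𝒜 z v) = 0 := by
      intro a
      rw [h2 a v, hRe0, hz0]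
      ring
    have hBeq : B z (𝒜 z v) = B z η' := by
      ext i
      by_cases hi : ∃ a, σ a = i
      · obtain ⟨a, rfl⟩ := hi
        rw [hBσ, hBσ, hγ𝒜, hγη]
      · rw [hBn z i _ hi, hBn z i _ hi, h𝒜i i hi]
    have hBinj : Function.Injective (B z) :=
      (H308.Bir.bij_of_det_ne (by rw [hBd]; exact h4)).1
    have h𝒜η : 𝒜 z v = η' := hBinj hBeq
    refine ⟨Ring.inverse (dV (Cm n) c z) v, ?_, ?_⟩
    · rw [dif_eq_dV]
      exact hRe0
    · have h10 := dV_comp (h := (ψ : Y → Cm p)) (HolV.chart h6) (hf z)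
      have h11 := congrArg (fun T : Cm n →L[ℂ] Cm p => T (Ring.inverse (dV (Cm n) c z) v)) h10
      simp only [ContinuousLinearMap.comp_apply] at h11
      have h12 : dV (Cm p) (ψ : Y → Cm p) (f z)
          (dM (Cm n) (Cm p) f z (Ring.inverse (dV (Cm n) c z) v)) =
          dV (Cm p) (ψ : Y → Cm p) (f z) η := by
        rw [← h11]
        exact h𝒜η
      exact (H308.Bir.bij_of_det_ne (jac_chart_ne_zero h6)).1 h12
  obtain ⟨q, hq, hqe⟩ := H511.Gen.exists_factor (n := n) he hey hde hNh hN0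
  have hqc : ContinuousAt q y := HolV.continuousAt hq
  refine ⟨‖q y / dB y‖ + 1, by positivity, ?_⟩
  filter_upwards [h1, hdBc.eventually_ne hdB0, (hw a₁).continuousAt.eventually_ne hw0,
    (hqc.div hdBc hdB0).norm.eventually_lt_const (lt_add_one ‖q y / dB y‖), hqe]
    with z h2 h3 h4 h5 h9 he0
  have h6 := det_factor hσ (M z) a₁ he0 hκ (u := fun a => w a z) h4
    (fun b => Re z (Pi.single (K b) 1)) (fun a b => Rw a z (Pi.single (K b) 1)) (by
      intro a b
      rw [hMi, hBσ, h2])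
  have h7 : (M z).det = dB z * (mK (𝒜 z) K).det := by
    rw [← hBd]
    exact mnr_comp (B z) (𝒜 z) K
  have hpos : 1 ≤ ∑ a, κ a := le_trans (hκ a₁)
    (Finset.single_le_sum (f := κ) (fun a _ => Nat.zero_le _) (Finset.mem_univ a₁))
  have h10 : (M z).det = e z ^ (∑ a, κ a - 1) * (N z).det := h6
  have h8 : (mK (𝒜 z) K).det = e z ^ (∑ a, κ a) * (q z / dB z) := by
    have h12 : e z ^ (∑ a, κ a) = e z ^ (∑ a, κ a - 1) * e z := by
      rw [← pow_succ, Nat.sub_add_cancel hpos]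
    rw [mul_div_assoc', eq_div_iff h3, mul_comm, ← h7, h10, h9, h12]
    ring
  rw [h8, norm_mul, norm_pow, mul_comm]
  exact mul_le_mul_of_nonneg_right h5.le (by positivity)

/-- the bound for the tensor -/
theorem tq_bound_n {f : Z → Y} {y : Z} {y₀ : Y} {c : Z → Cm n}
    (hf : ∀ z, HolM (Cm n) (Cm p) f z) (hy : f y ∈ (chartAt (Cm p) y₀).source)
    (hc : HolV (Cm n) c y) (hu : IsUnit (dV (Cm n) c y)) {α : Type} [Fintype α] (a₁ : α)
    {e : Z → ℂ} (he : HolV (Cm n) e y) (hey : e y = 0) (hde : dif (Cm n) e y ≠ 0)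
    {w : α → Z → ℂ} (hw : ∀ a, HolV (Cm n) (w a) y)
    (hw0 : w a₁ y ≠ 0) {g : α → Y → ℂ} (hg : ∀ a, HolV (Cm p) (g a) (f y))
    (hdg : Function.Surjective fun (ξ : Cm p) (a : α) => dif (Cm p) (g a) (f y) ξ)
    {κ : α → ℕ} (hκ : ∀ a, 0 < κ a) (heq : ∀ a, ∀ᶠ z in 𝓝 y, g a (f z) = e z ^ κ a * w a z)
    (hn : ∀ᶠ z in 𝓝 y, e z = 0 → ¬ SubAt (n := n) (p := p) f e g z)
    (m : ℕ) (I : Fin (m * p) → Fin n) : ∃ C : ℝ, 0 ≤ C ∧ ∀ᶠ z in 𝓝 y, e z ≠ 0 →
      ‖tq m ((dV (Cm n) (fun z => (chartAt (Cm p) y₀ : Y → Cm p) (f z)) z).comp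
        (Ring.inverse (dV (Cm n) c z))) I‖ ≤ C * ‖e z‖ ^ (m * ∑ a, κ a) := by
  choose C hC0 hC using fun r : Fin m => det_bound_n hf hy hc hu a₁ he hey hde hw hw0 hg hdg hκ heq
    hn (fun b => I (finProdFinEquiv (r, b)))
  refine ⟨∏ r, C r, Finset.prod_nonneg fun r _ => hC0 r, ?_⟩
  filter_upwards [eventually_all.2 hC] with z hz he0
  unfold tq
  rw [norm_prod]
  calc ∏ r : Fin m, ‖(mK ((dV (Cm n) (fun z => (chartAt (Cm p) y₀ : Y → Cm p) (f z)) z).comp
        (Ring.inverse (dV (Cm n) c z))) fun b => I (finProdFinEquiv (r, b))).det‖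
      ≤ ∏ r : Fin m, (C r * ‖e z‖ ^ (∑ a, κ a)) :=
        Finset.prod_le_prod (fun r _ => norm_nonneg _) fun r _ => hz r he0
    _ = (∏ r, C r) * ‖e z‖ ^ (m * ∑ a, κ a) := by
        rw [Finset.prod_mul_distrib, Finset.prod_const, Finset.card_univ, Fintype.card_fin,
          ← pow_mul, mul_comm m]

end Vale.Agent.P281.H303.X
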