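import Vale.Agent.P281.H303.X.Base

/-!
# P281 (helper303): reduced SNC divisors of the base, the logarithmic form
-/

open Set Filter Metric Vale.Agent.P281 Vale.Agent.P281.H713 Vale.Agent.P281.H64
open Vale.Agent.P281.H64.Gen
open Vale.Agent.P281.H511.Gen (sm)
open Vale.Agent.P281.H383.Gen (exists_notMem)
open scoped Topology ContDiff Manifold ENNReal

set_option linter.all false

noncomputable section

namespace Vale.Agent.P281.H303.X

/-- `κ(Y, K_Y + Γ) ≤ kodF f Δ` for a reduced SNC divisor `Γ`, if the prime divisors of `X` which are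
mapped into `Γ` have coefficient `1` in `Δ` -/
theorem log_le {n p : ℕ} {X Y : Type} [TopologicalSpace X] [ChartedSpace (Cm n) X]
    [TopologicalSpace Y] [ChartedSpace (Cm p) Y] {f : X → Y} {Δ : Set X → ℝ} {Γ : Set Y → ℝ}
    (h : H511.Surf.IsFibration (Cm n) (Cm p) f Δ) (hΓ : J.IsSNC (Cm p) Γ)
    (h01 : ∀ G, Γ G = 0 ∨ Γ G = 1)
    (h1 : ∀ E G, J.IsPrime (Cm n) E → Γ G = 1 → f '' E ⊆ G → Δ E = 1) :
    TZ.S.kodX (Cm p) Γ ≤ TZ.S.kodF n p Δ (id : X → X) f := by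
  classical
  obtain ⟨⟨_, _⟩, _, _, ⟨_, _⟩, hf, hc, hΔ⟩ := h
  have hsurj : Function.Surjective f := fun y => (hc y).nonempty
  have hsub := H364.Gen.exists_submersive (H364.crit H150.Gen.img) H383.Gen.compl hf hc
  obtain ⟨g1, g2, g3, g4⟩ := id hΓ
  have hs : ∀ y, TZ.S.SNCAt (Cm p) Γ y := fun y g hg => g4 y g hg
  obtain ⟨hΔfin, hpr, hrat, -⟩ := id hΔ
  have hΔ0 : ∀ D, 0 ≤ Δ D := fun D => by
    obtain ⟨q, hq, h0, -⟩ := hrat D
    rw [hq]
    exact_mod_cast h0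
  rw [TZ.S.kodF_eq]
  refine comp_x H413.TZ.genPart hΔ H511.Gen.isBigOpen_id hf hsub ⟨g1, g2, g3⟩ ?_ hΔ
    (H511.Gen.isRestriction_id Δ) ?_
  · intro z G hG hz
    exact subset_closure ⟨⟨G, hG, hz⟩, Eventually.of_forall hs⟩
  · intro y e he he0 hde hS
    left
    intro κ hκ
    obtain ⟨G₁, hG₁, hyG₁⟩ := hS.self_of_nhds.2 he0
    have hG₁p := g2 G₁ hG₁
    have hnear : ∀ᶠ w in 𝓝 y, w ∈ f ⁻¹' G₁ ↔ e w = 0 := by
      obtain ⟨g, hg⟩ := hG₁p.2.1 (f y)
      have h1 : ∀ᶠ w in 𝓝 y, f w ∈ G₁ ↔ g (f w) = 0 :=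
        hf.continuous.continuousAt.eventually (H511.Gen.isLocalEq_mem_iff hg)
      have hh : J.HolAt (Cm n) (fun w => g (f w)) y :=
        ContMDiffAt.comp y (H511.Gen.isLocalEq_holAt hg) (hf y)
      have h2 : ∀ᶠ w in 𝓝 y, g (f w) = 0 → e w = 0 := by
        filter_upwards [h1, hS] with w h3 h4 h5
        exact h4.1 ⟨G₁, hG₁, h3.2 h5⟩
      have h3 := H511.Gen.zero_of_codim he he0 hde hh (h1.self_of_nhds.1 hyG₁) h2
      filter_upwards [h1, h2, h3] with w h4 h5 h6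
      exact ⟨fun h => h5 (h4.1 h), fun h => h4.2 (h6 h)⟩
    have hex := exists_notMem hsurj hG₁p
    obtain ⟨P, hP, hPD, hPe⟩ := H303.Gen.irr n X (f ⁻¹' G₁) (hG₁p.1.preimage hf.continuous)
      (H511.Gen.isHyp_preimage hf hG₁p.2.1 (H511.Gen.not_eventually_preimage hf hG₁p.2.1 hex))
      y e he he0 hde hnear
    have hyP : y ∈ P := (H511.Gen.isLocalEq_mem_iff hPe).self_of_nhds.2 he0
    have hP1 : Δ P = 1 := h1 P G₁ hP ((h01 G₁).resolve_left hG₁) (image_subset_iff.2 hPD)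
    have hδ : 1 - ∑ᶠ (D : Set X) (_ : y ∈ D), Δ D ≤ 0 := by
      have e1 : (∑ᶠ (_ : y ∈ P), Δ P) = Δ P := finsum_eq_if.trans (if_pos hyP)
      have h10 := single_le_finsum (f := fun D : Set X => ∑ᶠ (_ : y ∈ D), Δ D) P
        (hΔfin.subset fun D' hD' => by
          intro h
          apply hD'
          change (∑ᶠ (_ : y ∈ D'), Δ D') = 0
          rw [h]
          exact finsum_zero) (fun D' => by
          change 0 ≤ ∑ᶠ (_ : y ∈ D'), Δ D'
          rw [finsum_eq_if]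
          split_ifs
          · exact hΔ0 D'
          · exact le_rfl)
      have h11 := e1.symm.le.trans h10
      linarith
    refine hδ.trans (le_of_eq ?_)
    symm
    refine (finsum_congr fun G => ?_).trans finsum_zero
    refine (finsum_congr fun hG => ?_).trans finsum_zero
    rw [(h01 G).resolve_left hG.1, sub_self, mul_zero]

end Vale.Agent.P281.H303.X
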