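import Vale.Agent.P281.H303.X.Det
import Vale.Agent.P281.H511.Gen.Prime

/-!
# P281 (helper303): the points where a divisor has no simple normal crossings form an analytic set
-/

open scoped Manifold ContDiff Topology
open Set Filter Metric Vale.Agent.P281 Vale.Agent.P272.K
open Vale.Agent.P281.MF Vale.Agent.P281.ISO Vale.Agent.P281.ELL Vale.Agent.P281.H713
open Vale.Agent.P281.H64.Gen (IsAnalyticSet)
open Vale.Agent.P281.H511.Gen (sm isAnalyticSet_sUnion isLocalEq_mem_iff isLocalEq_holAt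
  isLocalEq_eventually exists_unit dif_mul_unit subset_closure_diff isAnalyticSet_preimage
  isAnalyticSet_isClosed)

set_option linter.all false

noncomputable section

namespace Vale.Agent.P281.H303.X

open Vale.Agent.P281.H713.TZ Vale.Agent.P281.H713.SA Vale.Agent.P281.H713.CO

theorem surj_of_mnr {n s : ℕ} {A : Cm n →L[ℂ] Cm s} {κ : Fin s → Fin n} (h : mnr A κ ≠ 0) :
    Function.Surjective A := by
  intro v
  set M : Matrix (Fin s) (Fin s) ℂ := Matrix.of fun a b => A (Pi.single (κ b) 1) a with hM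
  refine ⟨∑ b, (M⁻¹.mulVec v) b • (Pi.single (κ b) 1 : Cm n), ?_⟩
  have h1 : M.mulVec (M⁻¹.mulVec v) = v := by
    rw [Matrix.mulVec_mulVec, Matrix.mul_nonsing_inv _ (isUnit_iff_ne_zero.2 h),
      Matrix.one_mulVec]
  rw [map_sum]
  funext a
  rw [Finset.sum_apply]
  have h2 : M.mulVec (M⁻¹.mulVec v) a = ∑ b, M a b * (M⁻¹.mulVec v) b := rfl
  rw [h1] at h2
  rw [h2]
  refine Finset.sum_congr rfl fun b _ => ?_
  rw [map_smul]
  show (M⁻¹.mulVec v) b * A (Pi.single (κ b) 1) a = M a b * (M⁻¹.mulVec v) b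
  rw [mul_comm]
  rfl

variable {p : ℕ} {Y : Type} [TopologicalSpace Y] [ChartedSpace (Cm p) Y]

/-- The points of the intersection of the `G ∈ T` where they do not cross normally. -/
def Dep (p : ℕ) {Y : Type} [TopologicalSpace Y] [ChartedSpace (Cm p) Y] (T : Finset (Set Y)) :
    Set Y :=
  {y | (∀ G ∈ T, y ∈ G) ∧ ∃ g : Set Y → Y → ℂ, (∀ G ∈ T, J.IsLocalEq (Cm p) G (g G) y) ∧
    ¬ Function.Surjective fun (ξ : Cm p) (G : {G // G ∈ T}) => J.dif (Cm p) (g G) y ξ}

variable [IsManifold 𝓘(ℂ, Cm p) ω Y]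

theorem isAnalyticSet_dep {T : Finset (Set Y)} (hT : ∀ G ∈ T, J.IsPrime (Cm p) G) :
    IsAnalyticSet (Cm p) (Dep p T) := by
  classical
  intro y₀
  choose! h hh using fun G (hG : G ∈ T) => (hT G hG).2.1 y₀
  set φ := chartAt (Cm p) y₀ with hφ
  have hy₀ : y₀ ∈ φ.source := mem_chart_source _ y₀
  have hev : ∀ᶠ y in 𝓝 y₀, (∀ G ∈ T, J.IsLocalEq (Cm p) G (h G) y) ∧ y ∈ φ.source := by
    refine Filter.Eventually.and ?_ (φ.open_source.mem_nhds hy₀)
    rw [Filter.eventually_all_finset]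
    exact fun G hG => isLocalEq_eventually (hh G hG)
  obtain ⟨U, hU, hUo, hyU⟩ := eventually_nhds_iff.1 hev
  let ε : {G // G ∈ T} ≃ Fin (Fintype.card {G // G ∈ T}) := Fintype.equivFin _
  set s := Fintype.card {G // G ∈ T} with hs
  set A : Y → (Cm p →L[ℂ] Cm s) := fun y => ContinuousLinearMap.pi fun a =>
    fderiv ℂ (h (ε.symm a) ∘ φ.symm) (φ y) with hA
  have hAa : ∀ y v a, A y v a = fderiv ℂ (h (ε.symm a) ∘ φ.symm) (φ y) v := fun y v a => rfl
  refine ⟨U, {G // G ∈ T} ⊕ (Fin s → Fin p), fun i y => Sum.elim (fun G : {G // G ∈ T} => h (G : Set Y) y)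
    (fun κ => mnr (A y) κ) i, hUo, hyU, ?_, ?_⟩
  · rintro (G | κ) y hy
    · exact isLocalEq_holAt ((hU y hy).1 G G.2)
    · show J.HolAt (Cm p) (fun y => mnr (A y) κ) y
      have h1 : HolV (Cm p) (fun y => (Matrix.of fun a b : Fin s =>
          fderiv ℂ (h (ε.symm a) ∘ φ.symm) (φ y) (Pi.single (κ b) 1)).det) y := by
        refine holV_det (n := p) (Z := Y) fun a b => ?_
        have h2 : HolV (Cm p) (fun y => fderiv ℂ (h (ε.symm a) ∘ φ.symm) (φ y)) y :=
          holV_fderiv (hU y hy).2 (isLocalEq_holAt ((hU y hy).1 _ (ε.symm a).2))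
        exact holV_app (n := p) (Z := Y) h2 _
      exact h1
  · intro y hy
    obtain ⟨hloc, hys⟩ := hU y hy
    have hdif : ∀ a (ξ : Cm p), J.dif (Cm p) (h (ε.symm a)) y ξ =
        A y (dV (Cm p) (φ : Y → Cm p) y ξ) a := by
      intro a ξ
      have h1 := dV_eq_chart hys (show HolV (Cm p) (h (ε.symm a)) y from
        isLocalEq_holAt (hloc _ (ε.symm a).2))
      show dif (Cm p) (h (ε.symm a)) y ξ = _
      rw [dif_eq_dV, h1]
      rfl
    -- surjectivity
    have hsur : (Function.Surjective fun (ξ : Cm p) (G : {G // G ∈ T}) =>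
        J.dif (Cm p) (h G) y ξ) ↔ ∃ κ, mnr (A y) κ ≠ 0 := by
      constructor
      · intro h1
        refine exists_mnr fun v => ?_
        obtain ⟨ξ, hξ⟩ := h1 fun G => v (ε G)
        refine ⟨dV (Cm p) (φ : Y → Cm p) y ξ, ?_⟩
        funext a
        rw [← hdif]
        have h2 := congrFun hξ (ε.symm a)
        simp only [Equiv.apply_symm_apply] at h2
        exact h2
      · rintro ⟨κ, hκ⟩ v
        obtain ⟨w, hw⟩ := surj_of_mnr hκ fun a => v (ε.symm a)
        obtain ⟨ξ, hξ⟩ := surj_of_isUnit (isUnit_dV_chart (E := Cm p) hys) w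
        refine ⟨ξ, ?_⟩
        funext G
        have h2 := hdif (ε G) ξ
        rw [Equiv.symm_apply_apply] at h2
        show J.dif (Cm p) (h G) y ξ = v G
        rw [h2, hξ, hw]
        show v (ε.symm (ε G)) = v G
        rw [Equiv.symm_apply_apply]
    constructor
    · rintro ⟨hyT, g, hg, hns⟩ i
      have hmem : ∀ G ∈ T, h G y = 0 := fun G hG =>
        (isLocalEq_mem_iff (hloc G hG)).self_of_nhds.1 (hyT G hG)
      rcases i with G | κ
      · exact hmem G G.2
      · show mnr (A y) κ = 0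
        by_contra hκ
        apply hns
        have h1 := hsur.2 ⟨κ, hκ⟩
        have hne : ∀ G : {G // G ∈ T}, J.dif (Cm p) (h G) y ≠ 0 := by
          intro G h0
          obtain ⟨ξ, hξ⟩ := h1 fun _ => 1
          have h2 : J.dif (Cm p) (h G) y ξ = 1 := congrFun hξ G
          rw [h0] at h2
          exact zero_ne_one h2
        choose w hw hw0 hwe using fun G : {G // G ∈ T} => exists_unit
          (isLocalEq_holAt (hloc G G.2)) (hmem G G.2) (hne G) (isLocalEq_mem_iff (hloc G G.2))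
          (hg G G.2)
        intro v
        obtain ⟨ξ, hξ⟩ := h1 fun G => (w G y)⁻¹ * v G
        refine ⟨ξ, ?_⟩
        funext G
        have h2 : J.dif (Cm p) (h G) y ξ = (w G y)⁻¹ * v G := congrFun hξ G
        show J.dif (Cm p) (g G) y ξ = v G
        rw [dif_mul_unit (isLocalEq_holAt (hloc G G.2)) (hmem G G.2) (hw G) (hwe G)]
        show w G y • J.dif (Cm p) (h G) y ξ = v G
        rw [h2, smul_eq_mul, ← mul_assoc, mul_inv_cancel₀ (hw0 G), one_mul]
    · intro hz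
      refine ⟨fun G hG => (isLocalEq_mem_iff (hloc G hG)).self_of_nhds.2 (hz (Sum.inl ⟨G, hG⟩)),
        h, hloc, fun h1 => ?_⟩
      obtain ⟨κ, hκ⟩ := hsur.1 h1
      exact hκ (hz (Sum.inr κ))

/-- **the points where `Γ` has no simple normal crossings form an analytic set** -/
theorem isAnalyticSet_nsnc {Γ : Set Y → ℝ} (hfin : {G | Γ G ≠ 0}.Finite)
    (hpr : ∀ G, Γ G ≠ 0 → J.IsPrime (Cm p) G) :
    IsAnalyticSet (Cm p) {y | ¬ TZ.S.SNCAt (Cm p) Γ y} := by
  classical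
  have h1 : {y | ¬ TZ.S.SNCAt (Cm p) Γ y} =
      ⋃₀ ((fun T : Finset (Set Y) => Dep p T) '' {T | T ∈ hfin.toFinset.powerset}) := by
    ext y
    constructor
    · intro hy
      have hy' : ∃ g : Set Y → Y → ℂ, (∀ G, Γ G ≠ 0 → y ∈ G → J.IsLocalEq (Cm p) G (g G) y) ∧
          ¬ Function.Surjective fun (ξ : Cm p) (G : {G // Γ G ≠ 0 ∧ y ∈ G}) =>
            J.dif (Cm p) (g G) y ξ := by
        by_contra hcon
        push Not at hcon
        exact hy fun g hg => hcon g hg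
      obtain ⟨g, hg, hns⟩ := hy'
      have hm : ∀ G, G ∈ hfin.toFinset.filter (fun G => y ∈ G) ↔ Γ G ≠ 0 ∧ y ∈ G := by
        intro G
        rw [Finset.mem_filter, hfin.mem_toFinset]
        rfl
      refine ⟨_, ⟨hfin.toFinset.filter (fun G => y ∈ G),
        Finset.mem_powerset.2 (Finset.filter_subset _ _), rfl⟩, fun G hG => ((hm G).1 hG).2, g,
        fun G hG => hg G ((hm G).1 hG).1 ((hm G).1 hG).2, fun hsur => hns ?_⟩
      intro v
      obtain ⟨ξ, hξ⟩ := hsur fun G => v ⟨G, (hm G).1 G.2⟩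
      exact ⟨ξ, funext fun G => congrFun hξ ⟨G, (hm G).2 G.2⟩⟩
    · rintro ⟨_, ⟨T, hT, rfl⟩, hyT, g, hg, hns⟩ hsnc
      apply hns
      have hTs : T ⊆ hfin.toFinset := Finset.mem_powerset.1 hT
      have hex : ∀ G, ∃ g', (G ∈ T → g' = g G) ∧ (Γ G ≠ 0 → J.IsLocalEq (Cm p) G g' y) := by
        intro G
        by_cases hG : G ∈ T
        · exact ⟨g G, fun _ => rfl, fun _ => hg G hG⟩
        · by_cases hG' : Γ G ≠ 0
          · obtain ⟨g', hg'⟩ := (hpr G hG').2.1 y
            exact ⟨g', fun h => absurd h hG, fun _ => hg'⟩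
          · exact ⟨0, fun h => absurd h hG, fun h => absurd h hG'⟩
      choose g' hg1 hg2 using hex
      have hsur := hsnc g' fun G hG _ => hg2 G hG
      intro v
      obtain ⟨ξ, hξ⟩ := hsur fun G => if h : (G : Set Y) ∈ T then v ⟨G, h⟩ else 0
      refine ⟨ξ, funext fun G => ?_⟩
      have hΓG : Γ G ≠ 0 := hfin.mem_toFinset.1 (hTs G.2)
      have h3 : J.dif (Cm p) (g' G) y ξ = if h : (G : Set Y) ∈ T then v ⟨G, h⟩ else 0 :=
        congrFun hξ ⟨G, hΓG, hyT G G.2⟩
      rw [dif_pos G.2, hg1 G G.2] at h3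
      exact h3
  rw [h1]
  refine isAnalyticSet_sUnion ?_ ?_
  · refine Set.Finite.image _ ?_
    exact (hfin.toFinset.powerset).finite_toSet
  · rintro _ ⟨T, hT, rfl⟩
    have hTs : T ⊆ hfin.toFinset := Finset.mem_powerset.1 hT
    exact isAnalyticSet_dep fun G hG => hpr G (hfin.mem_toFinset.1 (hTs hG))

/-- `Γ` is SNC at the images of the general points of `D`, if it is SNC at one image -/
theorem snc_dense {n : ℕ} {X : Type} [TopologicalSpace X] [ChartedSpace (Cm n) X]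
    [IsManifold 𝓘(ℂ, Cm n) ω X] {f : X → Y} (hf : ContMDiff 𝓘(ℂ, Cm n) 𝓘(ℂ, Cm p) ω f)
    {Γ : Set Y → ℝ} (hfin : {G | Γ G ≠ 0}.Finite) (hpr : ∀ G, Γ G ≠ 0 → J.IsPrime (Cm p) G)
    {D : Set X} (hD : J.IsPrime (Cm n) D) {x₀ : X} (hx₀ : x₀ ∈ D)
    (h : TZ.S.SNCAt (Cm p) Γ (f x₀)) :
    D ⊆ closure {z | z ∈ D ∧ ∀ᶠ y in 𝓝 (f z), TZ.S.SNCAt (Cm p) Γ y} := by
  have hN := isAnalyticSet_nsnc hfin hpr
  have hcl := isAnalyticSet_isClosed hN
  have h1 := subset_closure_diff hD (isAnalyticSet_preimage hf hN) fun hsub => hsub hx₀ h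
  refine h1.trans (closure_mono ?_)
  rintro z ⟨hz, hzN⟩
  refine ⟨hz.1, ?_⟩
  filter_upwards [hcl.isOpen_compl.mem_nhds hzN] with y hy
  exact not_not.1 hy

end Vale.Agent.P281.H303.X
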