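import Vale.Agent.P281.H303.X.Det

/-!
# P281 (helper303): mild exceptional divisors; the image of a hypersurface which is mapped
submersively to a stratum
-/

open scoped Manifold ContDiff Topology
open Set Filter Metric Vale.Agent.P281 Vale.Agent.P272.K
open Vale.Agent.P281.MF Vale.Agent.P281.ISO Vale.Agent.P281.ELL Vale.Agent.P281.H713

set_option linter.all false

noncomputable section

namespace Vale.Agent.P281.H303.X

open Vale.Agent.P281.H713.TZ Vale.Agent.P281.H713.SA Vale.Agent.P281.H713.CO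

variable {n p : ℕ} {Z Y : Type} [TopologicalSpace Z] [ChartedSpace (Cm n) Z]
  [IsManifold 𝓘(ℂ, Cm n) ω Z] [TopologicalSpace Y] [ChartedSpace (Cm p) Y]
  [IsManifold 𝓘(ℂ, Cm p) ω Y]

theorem dV_comp_i {q : ℕ} {h : Z → Cm q} {z : Z} (hh : HolV (Cm n) h z) (i : Fin q) (ξ : Cm n) :
    dV (Cm n) h z ξ i = dV (Cm n) (fun x => h x i) z ξ := by
  have h1 := dV_comp_contDiff (G := fun v : Cm q => v i)
    ((ContinuousLinearMap.proj (R := ℂ) (φ := fun _ : Fin q => ℂ) i).contDiff.contDiffAt) hh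
  have h2 : fderiv ℂ (fun v : Cm q => v i) (h z) = ContinuousLinearMap.proj i :=
    (ContinuousLinearMap.proj (R := ℂ) (φ := fun _ : Fin q => ℂ) i).fderiv
  rw [h1, h2]
  rfl

/-- The image of the hypersurface `e = 0` contains a neighbourhood of `f z` in the stratum. -/
theorem image_of_sub {f : Z → Y} {z : Z} (hf : ∀ z, HolM (Cm n) (Cm p) f z) {α : Type} [Fintype α]
    {e : Z → ℂ} (he : HolV (Cm n) e z) (he0 : e z = 0) (hde : dif (Cm n) e z ≠ 0)
    {g : α → Y → ℂ} (hg : ∀ a, HolV (Cm p) (g a) (f z))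
    (hdg : Function.Surjective fun (ξ : Cm p) (a : α) => dif (Cm p) (g a) (f z) ξ)
    (hgf : ∀ a, ∀ᶠ x in 𝓝 z, e x = 0 → g a (f x) = 0)
    (hs : SubAt (n := n) (p := p) f e g z) {W : Set Z} (hW : W ∈ 𝓝 z) :
    ∃ V ∈ 𝓝 (f z), ∀ y' ∈ V, (∀ a, g a y' = 0) → ∃ x ∈ W, e x = 0 ∧ f x = y' := by
  classical
  set ψ := chartAt (Cm p) (f z) with hψ
  have hy : f z ∈ ψ.source := mem_chart_source (Cm p) (f z)
  have hfc : ContinuousAt f z := (hf z).continuousAt
  have hψf : HolV (Cm n) (fun z => ψ (f z)) z :=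
    HolV.comp (h := (ψ : Y → Cm p)) (HolV.chart hy) (hf z)
  set v₀ : Cm p := ψ (f z) with hv₀
  set γ : α → (Cm p →L[ℂ] ℂ) := fun a => fderiv ℂ (g a ∘ ψ.symm) v₀ with hγ
  have hγd : ∀ a η, γ a (dV (Cm p) (ψ : Y → Cm p) (f z) η) = dif (Cm p) (g a) (f z) η := by
    intro a η
    have h1 := dV_eq_chart hy (hg a)
    rw [dif_eq_dV, h1]
    rfl
  have hγs : Function.Surjective fun (ξ : Cm p) (a : α) => γ a ξ := by
    intro v
    obtain ⟨ξ, hξ⟩ := hdg v
    refine ⟨dV (Cm p) (ψ : Y → Cm p) (f z) ξ, ?_⟩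
    rw [← hξ]
    funext a
    exact hγd a ξ
  obtain ⟨σ, hσ, hdet⟩ := exists_compl γ hγs
  set B : Cm p →L[ℂ] Cm p := ContinuousLinearMap.pi
    (Function.extend σ γ fun i => ContinuousLinearMap.proj i) with hB
  have hBσ : ∀ a v, B v (σ a) = γ a v := by
    intro a v
    have h1 := hσ.extend_apply γ (fun i => (ContinuousLinearMap.proj i : Cm p →L[ℂ] ℂ)) a
    show (Function.extend σ γ
      (fun i => (ContinuousLinearMap.proj i : Cm p →L[ℂ] ℂ)) (σ a)) v = _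
    rw [h1]
  have hBn : ∀ i v, (¬ ∃ a, σ a = i) → B v i = v i := by
    intro i v hi
    have h1 := Function.extend_apply' γ (fun i => (ContinuousLinearMap.proj i : Cm p →L[ℂ] ℂ)) i hi
    show (Function.extend σ γ
      (fun i => (ContinuousLinearMap.proj i : Cm p →L[ℂ] ℂ)) i) v = _
    rw [h1]
    rfl
  have hBb : Function.Bijective B := H308.Bir.bij_of_det_ne hdet
  -- the coordinates of `Y`
  set Q : Cm p → Cm p := fun v i => Function.extend σ (fun a => g a (ψ.symm v)) (fun i => v i) i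
    with hQ
  have hQσ : ∀ v a, Q v (σ a) = g a (ψ.symm v) := fun v a => hσ.extend_apply _ _ a
  have hQn : ∀ v i, (¬ ∃ a, σ a = i) → Q v i = v i := fun v i hi =>
    Function.extend_apply' _ _ _ hi
  have hγa : ∀ a, ContDiffAt ℂ ω (g a ∘ ψ.symm) v₀ := fun a => (hg a).rep hy
  have hQc : ContDiffAt ℂ ω Q v₀ := by
    rw [contDiffAt_pi]
    intro i
    by_cases hi : ∃ a, σ a = i
    · obtain ⟨a, rfl⟩ := hi
      have h1 : (fun v => Q v (σ a)) = g a ∘ ψ.symm := funext fun v => hQσ v a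
      rw [h1]
      exact hγa a
    · have h1 : (fun v => Q v i) = fun v => v i := funext fun v => hQn v i hi
      rw [h1]
      exact (ContinuousLinearMap.proj (R := ℂ) (φ := fun _ : Fin p => ℂ) i).contDiff.contDiffAt
  have hQd : HasFDerivAt Q B v₀ := by
    rw [hasFDerivAt_pi']
    intro i
    by_cases hi : ∃ a, σ a = i
    · obtain ⟨a, rfl⟩ := hi
      have h1 : (fun v => Q v (σ a)) = g a ∘ ψ.symm := funext fun v => hQσ v a
      rw [h1]
      have h2 : (ContinuousLinearMap.proj (σ a)).comp B = γ a :=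
        ContinuousLinearMap.ext fun v => hBσ a v
      rw [h2]
      exact ((hγa a).differentiableAt (by simp)).hasFDerivAt
    · have h1 : (fun v => Q v i) = fun v => v i := funext fun v => hQn v i hi
      rw [h1]
      have h2 : (ContinuousLinearMap.proj i).comp B =
          (ContinuousLinearMap.proj i : Cm p →L[ℂ] ℂ) :=
        ContinuousLinearMap.ext fun v => hBn i v hi
      rw [h2]
      exact (ContinuousLinearMap.proj (R := ℂ) (φ := fun _ : Fin p => ℂ) i).hasFDerivAt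
  set B' : Cm p ≃L[ℂ] Cm p := ContinuousLinearEquiv.ofBijective B
    (LinearMap.ker_eq_bot.2 hBb.1) (LinearMap.range_eq_top.2 hBb.2) with hB'
  have hQd' : HasFDerivAt Q (B' : Cm p →L[ℂ] Cm p) v₀ := by
    have h1 : (B' : Cm p →L[ℂ] Cm p) = B := by
      ext v
      rfl
    rw [h1]
    exact hQd
  obtain ⟨O, hO, hinj⟩ : ∃ O ∈ 𝓝 v₀, InjOn Q O :=
    ⟨_, (hQc.toOpenPartialHomeomorph Q hQd' (by simp)).open_source.mem_nhds
      (hQc.mem_toOpenPartialHomeomorph_source hQd' (by simp)),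
      (hQc.toOpenPartialHomeomorph Q hQd' (by simp)).injOn⟩
  -- the map
  set β := {i : Fin p // ¬ ∃ a, σ a = i} with hβ
  set q := Fintype.card β with hq
  let ε : β ≃ Fin q := Fintype.equivFin β
  set h : Z → Cm (q + 1) := fun x => Fin.cons (e x) (fun j => ψ (f x) (ε.symm j)) with hh
  have hh0 : ∀ x, h x 0 = e x := fun x => rfl
  have hhs : ∀ x j, h x (Fin.succ j) = ψ (f x) (ε.symm j) := fun x j => rfl
  have hhol : HolV (Cm n) h z := by
    refine HolV.piF fun i => ?_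
    refine Fin.cases ?_ (fun j => ?_) i
    · exact he
    · exact hψf.eval _
  have hdψ : ∀ ξ, dV (Cm n) (fun x => ψ (f x)) z ξ =
      dV (Cm p) (ψ : Y → Cm p) (f z) (dM (Cm n) (Cm p) f z ξ) := by
    intro ξ
    have h10 := dV_comp (h := (ψ : Y → Cm p)) (HolV.chart hy) (hf z)
    rw [h10]
    rfl
  have hsurj : Function.Surjective (dV (Cm n) h z) := by
    intro t
    obtain ⟨ξ₁, hξ₁⟩ : ∃ ξ₁, dif (Cm n) e z ξ₁ = 1 := by
      have h1 : ∃ ξ, dif (Cm n) e z ξ ≠ 0 := by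
        by_contra hcon
        push Not at hcon
        exact hde (ContinuousLinearMap.ext fun v => hcon v)
      obtain ⟨ξ, hξ⟩ := h1
      refine ⟨(dif (Cm n) e z ξ)⁻¹ • ξ, ?_⟩
      rw [map_smul, smul_eq_mul, inv_mul_cancel₀ hξ]
    set s : Cm p := dV (Cm n) (fun x => ψ (f x)) z ξ₁ with hs'
    obtain ⟨η', hη'⟩ := hBb.2 (fun i => if hi : ∃ a, σ a = i then 0 else
      t (Fin.succ (ε ⟨i, hi⟩)) - t 0 * s i)
    obtain ⟨η, hη⟩ := surj_of_isUnit (isUnit_dV_chart (E := Cm p) hy) η'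
    have hη0 : ∀ a, dif (Cm p) (g a) (f z) η = 0 := by
      intro a
      rw [← hγd, hη, ← hBσ, hη']
      exact dif_pos ⟨a, rfl⟩
    obtain ⟨ξ₀, h1, h2⟩ := hs η hη0
    refine ⟨t 0 • ξ₁ + ξ₀, ?_⟩
    funext i
    rw [dV_comp_i hhol]
    refine Fin.cases ?_ (fun j => ?_) i
    · have h3 : (fun x => h x 0) = e := rfl
      rw [h3, ← dif_eq_dV, map_add, map_smul, hξ₁, h1, smul_eq_mul, mul_one, add_zero]
    · have h3 : (fun x => h x (Fin.succ j)) = fun x => ψ (f x) (ε.symm j) := rfl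
      rw [h3, ← dV_comp_i (h := fun x => ψ (f x)) hψf, map_add, map_smul]
      have h4 : dV (Cm n) (fun x => ψ (f x)) z ξ₀ = η' := by
        rw [hdψ, h2, hη]
      rw [h4]
      have h5 := hBn (ε.symm j) η' (ε.symm j).2
      show t 0 * s (ε.symm j) + η' (ε.symm j) = t (Fin.succ j)
      have h6 : ε ⟨(ε.symm j : Fin p), (ε.symm j).2⟩ = j := by
        rw [Subtype.coe_eta, Equiv.apply_symm_apply]
      have h7 : B η' (ε.symm j) = t (Fin.succ (ε ⟨(ε.symm j : Fin p), (ε.symm j).2⟩)) -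
          t 0 * s (ε.symm j) := by
        rw [hη']
        exact dif_neg (ε.symm j).2
      rw [← h5, h7, h6]
      ring
  have hmap : 𝓝 (h z) ≤ map h (𝓝 z) :=
    nhds_le_map (n := n) (p := q + 1) (Z := Z) (Y := Cm (q + 1)) (f := h) hhol hsurj
  -- a good neighbourhood of `z`
  have hgf' : ∀ᶠ x in 𝓝 z, ∀ a, e x = 0 → g a (f x) = 0 := eventually_all.2 hgf
  have hW' : W ∩ {x | ∀ a, e x = 0 → g a (f x) = 0} ∩ (f ⁻¹' ψ.source) ∩
      (fun x => ψ (f x)) ⁻¹' O ∈ 𝓝 z :=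
    inter_mem (inter_mem (inter_mem hW hgf') (hfc.preimage_mem_nhds (ψ.open_source.mem_nhds hy)))
      (hψf.continuousAt.preimage_mem_nhds hO)
  have h1 := hmap (image_mem_map hW')
  have hτc : ContinuousAt (fun y' : Y => (Fin.cons (0 : ℂ) (fun j => ψ y' (ε.symm j)) :
      Cm (q + 1))) (f z) := by
    refine continuousAt_pi.2 fun i => ?_
    refine Fin.cases ?_ (fun j => ?_) i
    · exact continuousAt_const
    · exact continuousAt_pi.1 (ψ.continuousAt hy) _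
  have hτ0 : (Fin.cons (0 : ℂ) (fun j => ψ (f z) (ε.symm j)) : Cm (q + 1)) = h z := by
    rw [hh]
    simp only [he0]
  have h2 : ∀ᶠ y' in 𝓝 (f z), (Fin.cons (0 : ℂ) (fun j => ψ y' (ε.symm j)) : Cm (q + 1)) ∈
      h '' (W ∩ {x | ∀ a, e x = 0 → g a (f x) = 0} ∩ (f ⁻¹' ψ.source) ∩
        (fun x => ψ (f x)) ⁻¹' O) := by
    have h3 := hτc.tendsto
    simp only [hτ0] at h3
    exact h3.eventually h1
  refine ⟨{y' | (Fin.cons (0 : ℂ) (fun j => ψ y' (ε.symm j)) : Cm (q + 1)) ∈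
      h '' (W ∩ {x | ∀ a, e x = 0 → g a (f x) = 0} ∩ (f ⁻¹' ψ.source) ∩
        (fun x => ψ (f x)) ⁻¹' O)} ∩ ψ.source ∩ ψ ⁻¹' O,
    inter_mem (inter_mem h2 (ψ.open_source.mem_nhds hy)) ((ψ.continuousAt hy).preimage_mem_nhds hO),
    ?_⟩
  rintro y' ⟨⟨⟨x, ⟨⟨⟨hxW, hxg⟩, hxs⟩, hxO⟩, hxe⟩, hys⟩, hyO⟩ hy0
  have hex : e x = 0 := by
    have h3 := congrFun hxe 0
    exact h3
  refine ⟨x, hxW, hex, ?_⟩
  have h4 : Q (ψ (f x)) = Q (ψ y') := by
    funext i
    by_cases hi : ∃ a, σ a = i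
    · obtain ⟨a, rfl⟩ := hi
      rw [hQσ, hQσ, ψ.left_inv hxs, ψ.left_inv hys, hy0 a, hxg a hex]
    · rw [hQn _ i hi, hQn _ i hi]
      have h5 := congrFun hxe (Fin.succ (ε ⟨i, hi⟩))
      have h6 : ψ (f x) (ε.symm (ε ⟨i, hi⟩)) = ψ y' (ε.symm (ε ⟨i, hi⟩)) := h5
      rw [Equiv.symm_apply_apply] at h6
      exact h6
  have h7 : ψ (f x) = ψ y' := hinj hxO hyO h4
  exact ψ.injOn hxs hys h7

end Vale.Agent.P281.H303.X
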